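import Mathlib

/-! Uniform averages on finite types and the junta filtration. -/

namespace Vale.Agent.P047

open Finset

/-- uniform average -/
noncomputable def E {X : Type} [Fintype X] (f : X → ℝ) : ℝ := (∑ x, f x) / (Fintype.card X : ℝ)

section avg
variable {X Y : Type} [Fintype X] [Fintype Y]

lemma E_add (f g : X → ℝ) : E (fun x => f x + g x) = E f + E g := by
  simp [E, sum_add_distrib, add_div]

lemma E_sub (f g : X → ℝ) : E (fun x => f x - g x) = E f - E g := by
  simp [E, sum_sub_distrib, sub_div]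

lemma E_neg (f : X → ℝ) : E (fun x => - f x) = - E f := by
  simp [E, neg_div]

lemma E_mul_left (c : ℝ) (f : X → ℝ) : E (fun x => c * f x) = c * E f := by
  simp [E, ← mul_sum, mul_div_assoc]

lemma E_mul_right (c : ℝ) (f : X → ℝ) : E (fun x => f x * c) = E f * c := by
  simp only [mul_comm _ c, E_mul_left]

lemma E_const [Nonempty X] (c : ℝ) : E (fun _ : X => c) = c := by
  have : (Fintype.card X : ℝ) ≠ 0 := by exact_mod_cast Fintype.card_ne_zero
  simp [E]

lemma E_zero : E (fun _ : X => (0 : ℝ)) = 0 := by simp [E]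

lemma E_sum {A : Type} (s : Finset A) (f : A → X → ℝ) :
    E (fun x => ∑ a ∈ s, f a x) = ∑ a ∈ s, E (f a) := by
  simp only [E]
  rw [sum_comm, sum_div]

lemma E_mono {f g : X → ℝ} (h : ∀ x, f x ≤ g x) : E f ≤ E g := by
  unfold E
  gcongr with x
  exact h x

lemma E_nonneg {f : X → ℝ} (h : ∀ x, 0 ≤ f x) : 0 ≤ E f := by
  have := E_mono (f := fun _ => 0) (g := f) h
  rwa [E_zero] at this

lemma E_congr {f g : X → ℝ} (h : ∀ x, f x = g x) : E f = E g := by
  rw [funext h]

lemma E_equiv (e : X ≃ Y) (f : Y → ℝ) : E (fun x => f (e x)) = E f := by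
  simp only [E]
  rw [Equiv.sum_comp e f, Fintype.card_congr e]

lemma E_prod (f : X × Y → ℝ) : E f = E (fun x => E (fun y => f (x, y))) := by
  simp only [E]
  rw [Fintype.sum_prod_type, Fintype.card_prod, ← sum_div, div_div, Nat.cast_mul, mul_comm]

lemma E_comm (f : X → Y → ℝ) : E (fun x => E (fun y => f x y)) = E (fun y => E (fun x => f x y)) := by
  simp only [E]
  rw [← sum_div, ← sum_div, div_div, div_div, sum_comm, mul_comm]

lemma E_sumElim {I K : Type} [Fintype I] [DecidableEq I] [Fintype K] [DecidableEq K]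
    (f : (I ⊕ K → X) → ℝ) :
    E f = E (fun x : I → X => E (fun y : K → X => f (Sum.elim x y))) := by
  rw [← E_equiv (Equiv.sumArrowEquivProdArrow I K X).symm f, E_prod]
  rfl

lemma E_curry {I K : Type} [Fintype I] [DecidableEq I] [Fintype K] [DecidableEq K]
    (f : (I → K → X) → ℝ) :
    E (fun x : I × K → X => f (fun i j => x (i, j))) = E f := by
  rw [← E_equiv (Equiv.curry I K X) f]
  rfl

lemma E_update {I : Type} [Fintype I] [DecidableEq I] [Nonempty X] (i : I) (f : (I → X) → ℝ) :
    E f = E (fun x : I → X => E (fun a : X => f (Function.update x i a))) := by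
  let e : (I → X) × X ≃ (I → X) × X :=
    { toFun := fun p => (Function.update p.1 i p.2, p.1 i)
      invFun := fun p => (Function.update p.1 i p.2, p.1 i)
      left_inv := by intro p; simp
      right_inv := by intro p; simp }
  have h1 : E (fun p : (I → X) × X => f p.1) = E f := by
    rw [E_prod]; simp only [E_const]
  have h2 := E_equiv e (fun p : (I → X) × X => f p.1)
  rw [h1, E_prod] at h2
  exact h2.symm

/-- independence of one coordinate from the rest -/
lemma E_indep {I : Type} [Fintype I] [DecidableEq I] [Nonempty X] (i : I) (φ : X → ℝ)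
    (F : (I → X) → ℝ) (hF : ∀ x a, F (Function.update x i a) = F x) :
    E (fun x : I → X => φ (x i) * F x) = E φ * E F := by
  rw [E_update i]
  simp only [Function.update_self, hF, E_mul_right]
  rw [E_mul_left]

end avg

/-- The span of the functions depending on at most `r` coordinates. -/
def J (I Ω : Type) (r : ℕ) : Submodule ℝ ((I → Ω) → ℝ) :=
  Submodule.span ℝ {f | ∃ T : Finset I, T.card ≤ r ∧ ∀ x y : I → Ω, (∀ i ∈ T, x i = y i) → f x = f y}

section junta
variable {I Ω : Type}

lemma J_of_dep {r : ℕ} {f : (I → Ω) → ℝ} (T : Finset I) (hT : T.card ≤ r)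
    (h : ∀ x y : I → Ω, (∀ i ∈ T, x i = y i) → f x = f y) : f ∈ J I Ω r :=
  Submodule.subset_span ⟨T, hT, h⟩

lemma J_mono {r s : ℕ} (h : r ≤ s) {f : (I → Ω) → ℝ} (hf : f ∈ J I Ω r) : f ∈ J I Ω s := by
  refine Submodule.span_mono ?_ hf
  rintro g ⟨T, hT, hg⟩
  exact ⟨T, hT.trans h, hg⟩

lemma J_top [Fintype I] (f : (I → Ω) → ℝ) : f ∈ J I Ω (Fintype.card I) := by
  refine J_of_dep univ (by simp) ?_
  intro x y h
  rw [funext fun i => h i (mem_univ i)]

lemma J_const (r : ℕ) (c : ℝ) : (fun _ : I → Ω => c) ∈ J I Ω r :=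
  J_of_dep ∅ (by simp) (fun _ _ _ => rfl)

lemma J_coord (i : I) (φ : Ω → ℝ) : (fun x : I → Ω => φ (x i)) ∈ J I Ω 1 :=
  J_of_dep {i} (by simp) (fun x y h => by rw [h i (by simp)])

lemma J_add {r : ℕ} {f g : (I → Ω) → ℝ} (hf : f ∈ J I Ω r) (hg : g ∈ J I Ω r) :
    (fun x => f x + g x) ∈ J I Ω r := Submodule.add_mem _ hf hg

lemma J_sub {r : ℕ} {f g : (I → Ω) → ℝ} (hf : f ∈ J I Ω r) (hg : g ∈ J I Ω r) :
    (fun x => f x - g x) ∈ J I Ω r := Submodule.sub_mem _ hf hg

lemma J_smul {r : ℕ} (c : ℝ) {f : (I → Ω) → ℝ} (hf : f ∈ J I Ω r) :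
    (fun x => c * f x) ∈ J I Ω r := Submodule.smul_mem _ c hf

lemma J_sum {r : ℕ} {A : Type} (s : Finset A) {f : A → (I → Ω) → ℝ}
    (hf : ∀ a ∈ s, f a ∈ J I Ω r) : (fun x => ∑ a ∈ s, f a x) ∈ J I Ω r := by
  have := Submodule.sum_mem (J I Ω r) hf
  convert this using 1
  ext x; simp

lemma J_mul {r s : ℕ} {f g : (I → Ω) → ℝ} (hf : f ∈ J I Ω r) (hg : g ∈ J I Ω s) :
    (fun x => f x * g x) ∈ J I Ω (r + s) := by
  classical
  induction hf using Submodule.span_induction with
  | mem f hf =>
    obtain ⟨T, hT, hf⟩ := hf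
    induction hg using Submodule.span_induction with
    | mem g hg =>
      obtain ⟨U, hU, hg⟩ := hg
      refine J_of_dep (T ∪ U) ((card_union_le _ _).trans (add_le_add hT hU)) ?_
      intro x y h
      rw [hf x y fun i hi => h i (mem_union_left _ hi), hg x y fun i hi => h i (mem_union_right _ hi)]
    | zero => simpa using J_const (I := I) (Ω := Ω) (r + s) 0
    | add g1 g2 _ _ h1 h2 =>
      have := J_add h1 h2
      convert this using 2
      simp [mul_add]
    | smul c g _ h1 =>
      have := J_smul c h1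
      convert this using 2
      simp; ring
  | zero => simpa using J_const (I := I) (Ω := Ω) (r + s) 0
  | add f1 f2 _ _ h1 h2 =>
    have := J_add h1 h2
    convert this using 2
    simp [add_mul]
  | smul c f _ h1 =>
    have := J_smul c h1
    convert this using 2
    simp; ring

/-- pull back along a map of index sets and coordinatewise maps -/
lemma J_pull {I' Ω' : Type} (e : I → I') (ψ : I → Ω' → Ω) {r : ℕ} {f : (I → Ω) → ℝ}
    (hf : f ∈ J I Ω r) : (fun x : I' → Ω' => f (fun i => ψ i (x (e i)))) ∈ J I' Ω' r := by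
  classical
  induction hf using Submodule.span_induction with
  | mem f hf =>
    obtain ⟨T, hT, hf⟩ := hf
    refine J_of_dep (T.image e) (card_image_le.trans hT) ?_
    intro x y h
    exact hf _ _ fun i hi => by rw [h (e i) (mem_image_of_mem e hi)]
  | zero => exact (J I' Ω' r).zero_mem
  | add f1 f2 _ _ h1 h2 => exact J_add h1 h2
  | smul c f _ h1 => exact J_smul c h1

lemma J_subst_aux {K : Type} [Fintype K] [DecidableEq K] [DecidableEq I] {D : ℕ}
    (W : I → (K → Bool) → ℝ)
    (hW : ∀ i (φ : ℝ → ℝ), (fun x => φ (W i x)) ∈ J K Bool D) (T : Finset I) :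
    ∀ H : (I → ℝ) → ℝ, (∀ x y : I → ℝ, (∀ i ∈ T, x i = y i) → H x = H y) →
      (fun x : I × K → Bool => H (fun i => W i (fun j => x (i, j)))) ∈
        J (I × K) Bool (T.card * D) := by
  classical
  induction T using Finset.induction_on with
  | empty =>
    intro H hH
    have : (fun x : I × K → Bool => H (fun i => W i (fun j => x (i, j)))) = fun _ => H 0 := by
      ext x; exact hH _ _ (by simp)
    rw [this]; exact J_const _ _
  | insert i T hi ih =>
    intro H hH
    have key : (fun x : I × K → Bool => H (fun i => W i (fun j => x (i, j)))) =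
        fun x => ∑ a ∈ univ.image (W i), (if W i (fun j => x (i, j)) = a then 1 else 0) *
          H (Function.update (fun i => W i (fun j => x (i, j))) i a) := by
      ext x
      rw [sum_eq_single (W i (fun j => x (i, j)))]
      · simp
      · intro b _ hb; simp [Ne.symm hb]
      · intro h; exact absurd (mem_image_of_mem _ (mem_univ _)) h
    rw [key, card_insert_of_notMem hi, add_mul, one_mul, add_comm]
    refine J_sum _ fun a _ => J_mul ?_ ?_
    · exact J_pull (fun j : K => (i, j)) (fun _ b => b) (hW i fun t => if t = a then 1 else 0)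
    · refine ih (fun y => H (Function.update y i a)) ?_
      intro x y h
      refine hH _ _ fun j hj => ?_
      by_cases hji : j = i
      · subst hji; simp
      · rw [Function.update_of_ne hji, Function.update_of_ne hji]
        exact h j (by simpa [hji] using hj)

/-- substitution of low degree observables in a junta combination -/
lemma J_subst {K : Type} [Fintype K] [DecidableEq K] [DecidableEq I] {D r : ℕ}
    (W : I → (K → Bool) → ℝ)
    (hW : ∀ i (φ : ℝ → ℝ), (fun x => φ (W i x)) ∈ J K Bool D) {H : (I → ℝ) → ℝ}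
    (hH : H ∈ J I ℝ r) :
    (fun x : I × K → Bool => H (fun i => W i (fun j => x (i, j)))) ∈ J (I × K) Bool (r * D) := by
  induction hH using Submodule.span_induction with
  | mem f hf =>
    obtain ⟨T, hT, hf⟩ := hf
    exact J_mono (Nat.mul_le_mul_right _ hT) (J_subst_aux W hW T f hf)
  | zero => exact (J _ _ _).zero_mem
  | add f1 f2 _ _ h1 h2 => exact J_add h1 h2
  | smul c f _ h1 => exact J_smul c h1

end junta

end Vale.Agent.P047
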