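import Vale.Agent.P047.Moments

/-! Calibrated low degree observables on the cube. -/

namespace Vale.Agent.P047

open Finset

/-- the sign attached to a bit -/
def sg (b : Bool) : ℝ := if b then 1 else -1

/-- the sum of all coordinates -/
def L {K : Type} [Fintype K] (x : K → Bool) : ℝ := ∑ i, sg (x i)

/-- every function of `W` has junta degree at most `D`, and `W` is the conditional mean of `L` -/
def Obs (K : Type) [Fintype K] [DecidableEq K] (D : ℕ) (W : (K → Bool) → ℝ) : Prop :=
  (∀ φ : ℝ → ℝ, (fun x => φ (W x)) ∈ J K Bool D) ∧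
  (∀ φ : ℝ → ℝ, E (fun x => (L x - W x) * φ (W x)) = 0)

/-- symmetric, variance one, subgaussian up to `t0` -/
def Shape {X : Type} [Fintype X] (w : X → ℝ) (t0 : ℝ) : Prop :=
  (∀ φ : ℝ → ℝ, E (fun x => φ (- w x)) = E (fun x => φ (w x))) ∧
  E (fun x => w x ^ 2) = 1 ∧
  ∀ t : ℝ, |t| ≤ t0 → E (fun x => Real.exp (t * w x)) ≤ Real.exp (t ^ 2)

variable {K : Type} [Fintype K] [DecidableEq K]

lemma sg_not (b : Bool) : sg (!b) = - sg b := by cases b <;> simp [sg]

/-- flipping all bits -/
def negE (K : Type) : (K → Bool) ≃ (K → Bool) where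
  toFun x := fun j => !x j
  invFun x := fun j => !x j
  left_inv x := by simp
  right_inv x := by simp

omit [DecidableEq K] in
lemma L_neg (x : K → Bool) : L (fun j => !x j) = - L x := by
  simp [L, sg_not]

lemma E_L : E (fun x : K → Bool => L x) = 0 := by
  have h := E_equiv (negE K) (fun x : K → Bool => L x)
  have h2 : E (fun x : K → Bool => L (negE K x)) = - E (fun x : K → Bool => L x) := by
    rw [← E_neg]; exact E_congr fun x => L_neg x
  linarith

lemma Obs.mean {D : ℕ} {W : (K → Bool) → ℝ} (h : Obs K D W) : E W = 0 := by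
  have := h.2 fun _ => 1
  simp only [mul_one, E_sub, E_L] at this
  have e : E (fun x => W x) = E W := rfl
  linarith

lemma E_level {X : Type} [Fintype X] (g F : X → ℝ) (χ : ℝ → ℝ) :
    E (fun x => F x * χ (g x)) =
      ∑ a ∈ univ.image g, χ a * E (fun x => F x * if g x = a then 1 else 0) := by
  classical
  simp only [← E_mul_left]
  rw [← E_sum]
  refine E_congr fun x => ?_
  rw [sum_eq_single (g x)]
  · simp [mul_comm]
  · intro b _ hb; simp [Ne.symm hb]
  · intro h; exact absurd (mem_image_of_mem _ (mem_univ _)) h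

lemma calibrate {D : ℕ} {g : (K → Bool) → ℝ} (hg : ∀ φ : ℝ → ℝ, (fun x => φ (g x)) ∈ J K Bool D) :
    ∃ W, Obs K D W ∧ 2 * E (fun x => L x * g x) - E (fun x => g x ^ 2) ≤ E (fun x => W x ^ 2) := by
  classical
  let γ : ℝ → ℝ := fun a => E (fun x => L x * if g x = a then 1 else 0) /
    E (fun x => if g x = a then (1 : ℝ) else 0)
  have hγ : ∀ χ : ℝ → ℝ, E (fun x => (L x - γ (g x)) * χ (g x)) = 0 := by
    intro χ
    rw [E_level g]
    refine sum_eq_zero fun a ha => ?_
    obtain ⟨x0, -, hx0⟩ := mem_image.1 ha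
    have hpos : 0 < E (fun x => if g x = a then (1 : ℝ) else 0) := by
      unfold E
      refine div_pos (sum_pos' (fun x _ => by split_ifs <;> simp) ⟨x0, mem_univ _, by simp [hx0]⟩) ?_
      exact_mod_cast Fintype.card_pos
    have : E (fun x => (L x - γ (g x)) * if g x = a then 1 else 0) =
        E (fun x => (L x * if g x = a then 1 else 0) - γ a * if g x = a then 1 else 0) := by
      refine E_congr fun x => ?_
      split_ifs with h
      · rw [h]; ring
      · simp
    rw [this, E_sub, E_mul_left]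
    simp only [γ]
    rw [div_mul_cancel₀ _ hpos.ne']; simp
  refine ⟨fun x => γ (g x), ⟨fun φ => hg (fun a => φ (γ a)), fun φ => hγ (fun a => φ (γ a))⟩, ?_⟩
  have h1 := hγ id
  simp only [id, sub_mul, E_sub] at h1
  have h2 : E (fun x => 2 * (γ (g x) * g x) - g x ^ 2) ≤ E (fun x => γ (g x) ^ 2) :=
    E_mono fun x => by nlinarith [sq_nonneg (γ (g x) - g x)]
  rw [E_sub, E_mul_left] at h2
  linarith

lemma Obs.mirror {D : ℕ} {W : (K → Bool) → ℝ} (h : Obs K D W) :
    Obs K D (fun x => - W (fun j => !x j)) := by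
  refine ⟨fun φ => ?_, fun φ => ?_⟩
  · exact J_pull id (fun _ b => !b) (h.1 fun a => φ (-a))
  · have h1 := h.2 fun a => φ (-a)
    rw [← E_equiv (negE K)] at h1
    have : E (fun x => (L x - - W (fun j => !x j)) * φ (- W (fun j => !x j))) =
        - E (fun x => (L (negE K x) - W (negE K x)) * φ (- W (negE K x))) := by
      rw [← E_neg]
      refine E_congr fun x => ?_
      have : L (negE K x) = - L x := L_neg x
      rw [this]
      simp only [negE, Equiv.coe_fn_mk]
      ring
    rw [this, h1, neg_zero]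

section family
variable {I : Type} [Fintype I] [DecidableEq I]

omit [DecidableEq K] [DecidableEq I] in
lemma L_prod (x : I × K → Bool) : L x = ∑ i, L (fun j => x (i, j)) := by
  simp [L, Fintype.sum_prod_type]

lemma family_calib {D : ℕ} (W : I → (K → Bool) → ℝ) (hW : ∀ i, Obs K D (W i))
    (H : (I → ℝ) → ℝ) :
    E (fun x : I × K → Bool => (L x - ∑ i, W i (fun j => x (i, j))) *
      H (fun i => W i (fun j => x (i, j)))) = 0 := by
  have h1 : E (fun x : I × K → Bool => (L x - ∑ i, W i (fun j => x (i, j))) *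
      H (fun i => W i (fun j => x (i, j)))) =
      E (fun x : I → K → Bool => ∑ i, (L (x i) - W i (x i)) * H (fun i => W i (x i))) := by
    rw [← E_curry]
    refine E_congr fun x => ?_
    rw [L_prod, ← sum_sub_distrib, sum_mul]
  rw [h1, E_sum]
  refine sum_eq_zero fun i _ => ?_
  rw [E_update i]
  have : ∀ x : I → K → Bool, E (fun a => (L (Function.update x i a i) - W i (Function.update x i a i)) *
      H (fun j => W j (Function.update x i a j))) = 0 := by
    intro x
    have := (hW i).2 (fun s => H (Function.update (fun j => W j (x j)) i s))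
    refine (E_congr fun a => ?_).trans this
    simp only [Function.update_self]
    congr 2
    ext j
    by_cases hj : j = i
    · subst hj; simp
    · simp [Function.update_of_ne hj]
  simp only [this, E_zero]

lemma family_sum {D : ℕ} (W : I → (K → Bool) → ℝ) (hW : ∀ i, Obs K D (W i)) :
    Obs (I × K) (Fintype.card I * D) (fun x => ∑ i, W i (fun j => x (i, j))) :=
  ⟨fun φ => J_subst W (fun i => (hW i).1) (J_top (fun y : I → ℝ => φ (∑ i, y i))),
   fun φ => family_calib W hW (fun y => φ (∑ i, y i))⟩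

end family

lemma mgf_one {X : Type} [Fintype X] [Nonempty X] (Y : X → ℝ) (s : ℝ) (h0 : E Y = 0)
    (hb : ∀ x, |s * Y x| ≤ 1) :
    E (fun x => Real.exp (s * Y x)) ≤ Real.exp (s ^ 2 * E (fun x => Y x ^ 2)) := by
  have h1 : E (fun x => Real.exp (s * Y x)) ≤ E (fun x => 1 + s * Y x + s ^ 2 * Y x ^ 2) := by
    refine E_mono fun x => ?_
    have := Real.abs_exp_sub_one_sub_id_le (hb x)
    have := le_abs_self (Real.exp (s * Y x) - 1 - s * Y x)
    nlinarith
  rw [E_add, E_add, E_const, E_mul_left, E_mul_left] at h1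
  have e : E (fun x => Y x) = E Y := rfl
  rw [e, h0] at h1
  have := Real.add_one_le_exp (s ^ 2 * E (fun x => Y x ^ 2))
  linarith

lemma shape_step {D : ℕ} {W : (K → Bool) → ℝ} (h : Obs K D W) (hpos : 0 < E (fun x => W x ^ 2))
    (t0 : ℝ) : ∃ (K' : Type) (_ : Fintype K') (_ : DecidableEq K') (r : ℕ)
      (W' : (K' → Bool) → ℝ), 0 < r ∧ Obs K' (r * D) W' ∧
      E (fun x => W' x ^ 2) = r * E (fun x => W x ^ 2) ∧
      Shape (fun x => W' x / √(r * E (fun x => W x ^ 2))) t0 := by
  set v := E (fun x => W x ^ 2) with hv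
  obtain ⟨B, hB⟩ : ∃ B : ℝ, ∀ x, |W x| ≤ B :=
    ⟨∑ x, |W x|, fun x => single_le_sum (f := fun x => |W x|) (fun _ _ => abs_nonneg _) (mem_univ x)⟩
  obtain ⟨r, hr⟩ := exists_nat_gt ((t0 * B) ^ 2 / v)
  have hr0 : 0 < r := by
    have : (0 : ℝ) ≤ (t0 * B) ^ 2 / v := by positivity
    exact_mod_cast this.trans_lt hr
  let M : (K → Bool) → ℝ := fun x => - W (fun j => !x j)
  have hM : Obs K D M := h.mirror
  let U : Bool × Fin r → (K → Bool) → ℝ := fun p => if p.1 then W else M
  have hU : ∀ p, Obs K D (U p) := by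
    rintro ⟨b, l⟩; cases b
    · exact hM
    · exact h
  have hUB : ∀ p x, |U p x| ≤ B := by
    rintro ⟨b, l⟩ x; cases b
    · simpa [U, M] using hB _
    · exact hB _
  have hUv : ∀ p, E (fun x => U p x ^ 2) = v := by
    rintro ⟨b, l⟩; cases b
    · rw [hv, ← E_equiv (negE K) (fun x => W x ^ 2)]
      exact E_congr fun x => by simp [U, M, negE]
    · rfl
  have hcard : Fintype.card (Bool × Fin r) = 2 * r := by simp
  have hvar : E (fun x : (Bool × Fin r) × K → Bool => (∑ i, U i (fun j => x (i, j))) ^ 2) =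
      ((2 * r : ℕ) : ℝ) * v := by
    rw [E_curry (fun x : (Bool × Fin r) → K → Bool => (∑ i, U i (x i)) ^ 2),
      E_sum_sq U (fun i => (hU i).mean)]
    simp [hUv]
  have hs : 0 < ((2 * r : ℕ) : ℝ) * v := by positivity
  refine ⟨(Bool × Fin r) × K, inferInstance, inferInstance, 2 * r,
    fun x => ∑ i, U i (fun j => x (i, j)), by omega, hcard ▸ family_sum U hU, hvar, ?_, ?_, ?_⟩
  · intro φ
    let e : ((Bool × Fin r) × K → Bool) ≃ ((Bool × Fin r) × K → Bool) :=
      { toFun := fun x p => !x ((!p.1.1, p.1.2), p.2)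
        invFun := fun x p => !x ((!p.1.1, p.1.2), p.2)
        left_inv := by intro x; ext p; simp
        right_inv := by intro x; ext p; simp }
    rw [← E_equiv e]
    refine E_congr fun x => ?_
    congr 1
    rw [← neg_div]
    congr 1
    simp [e, U, M, Fintype.sum_prod_type]
  · simp only [div_pow]
    rw [Real.sq_sqrt hs.le]
    simp only [div_eq_mul_inv]
    rw [E_mul_right, hvar, mul_inv_cancel₀ hs.ne']
  · intro t ht
    set σ := √(((2 * r : ℕ) : ℝ) * v) with hσ
    have hσ0 : 0 < σ := Real.sqrt_pos.2 hs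
    have hσ2 : σ ^ 2 = ((2 * r : ℕ) : ℝ) * v := Real.sq_sqrt hs.le
    have h1 : E (fun x : (Bool × Fin r) × K → Bool =>
        Real.exp (t * ((∑ i, U i (fun j => x (i, j))) / σ))) =
        E (fun x : (Bool × Fin r) → K → Bool => ∏ i, Real.exp (t / σ * U i (x i))) := by
      rw [← E_curry]
      refine E_congr fun x => ?_
      rw [← Real.exp_sum, ← mul_sum]
      congr 1; ring
    have hB0 : 0 ≤ B := (abs_nonneg _).trans (hB fun _ => true)
    have ht0 : 0 ≤ t0 := (abs_nonneg _).trans ht
    have htB : t0 * B ≤ σ := by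
      refine (pow_le_pow_iff_left₀ (by positivity) hσ0.le two_ne_zero).1 ?_
      rw [div_lt_iff₀ hpos] at hr
      rw [hσ2]; push_cast; nlinarith
    rw [h1, E_pi_prod (fun i a => Real.exp (t / σ * U i a))]
    calc ∏ i, E (fun a => Real.exp (t / σ * U i a))
        ≤ ∏ _i : Bool × Fin r, Real.exp ((t / σ) ^ 2 * v) := by
          refine prod_le_prod (fun i _ => E_nonneg fun _ => (Real.exp_pos _).le) fun i _ => ?_
          rw [← hUv i]
          refine mgf_one (U i) _ (hU i).mean fun x => ?_
          rw [abs_mul, abs_div, abs_of_pos hσ0, div_mul_eq_mul_div, div_le_one hσ0]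
          exact (mul_le_mul ht (hUB i x) (abs_nonneg _) ht0).trans htB
      _ = Real.exp (t ^ 2) := by
          rw [prod_const, card_univ, hcard, ← Real.exp_nat_mul, div_pow, hσ2]
          congr 1
          field_simp

end Vale.Agent.P047
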