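import Vale.Agent.P047.Det
import Vale.Agent.P047.Sys

/-! Quantization of a subgaussian variable into cells of small total conditional variance. -/

namespace Vale.Agent.P047

open Finset

lemma Gad.mono {X : Type} [Fintype X] {w : X → ℝ} {k N N' : ℕ} {e e' b b' : ℝ}
    (h : Gad w k e b N) (he : e ≤ e') (hb : b' ≤ b) (hN : N ≤ N') : Gad w k e' b' N' := by
  obtain ⟨B, _, _, r, η, c, h1, h2, h3, h4, h5, h6, h7, h8⟩ := h
  exact ⟨B, inferInstance, inferInstance, r, η, c, h1.trans hN, h2, h3, h4, h5, hb.trans h6, h7,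
    h8.trans (mul_le_mul_of_nonneg_right he (E_nonneg fun _ => sq_nonneg _))⟩

lemma abs_mean {X : Type} [Fintype X] [Nonempty X] {w : X → ℝ} {t0 : ℝ} (ht : 1 ≤ t0)
    (h : Shape w t0) : 1 / 34 ≤ E (fun x => |w x|) := by
  obtain ⟨-, h2, h3⟩ := h
  have a1 := h3 1 (by simpa using ht)
  have a2 := h3 (-1) (by simpa using ht)
  have e3 : Real.exp 1 ≤ 3 := by have := Real.exp_one_lt_d9; linarith
  simp only [one_pow, even_two, Even.neg_pow] at a1 a2
  have h4 : E (fun x => w x ^ 2) ≤ E (fun x => 17 * |w x| +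
      (24 / 289) * (Real.exp (1 * w x) + Real.exp (-1 * w x))) := by
    refine E_mono fun x => ?_
    have b1 := Real.pow_div_factorial_le_exp (x := |w x|) (abs_nonneg _) 4
    have b2 : Real.exp |w x| ≤ Real.exp (1 * w x) + Real.exp (-1 * w x) := by
      have := Real.exp_pos (1 * w x)
      have := Real.exp_pos (-1 * w x)
      rcases abs_choice (w x) with h | h <;> rw [h] <;> simp at * <;> linarith
    have b3 : (Nat.factorial 4 : ℝ) = 24 := by norm_num [Nat.factorial]
    rw [b3] at b1
    rw [← sq_abs (w x)]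
    have hy := abs_nonneg (w x)
    generalize |w x| = y at *
    have b4 : y ^ 4 ≤ 24 * (Real.exp (1 * w x) + Real.exp (-1 * w x)) := by linarith
    by_cases hy17 : y ≤ 17
    · have := Real.exp_pos (1 * w x)
      have := Real.exp_pos (-1 * w x)
      nlinarith
    · push Not at hy17
      have : 289 * y ^ 2 ≤ y ^ 4 := by nlinarith [mul_pos (by linarith : 0 < y - 17) (by linarith : 0 < y + 17), sq_nonneg y]
      nlinarith
  rw [E_add, E_mul_left, E_mul_left, E_add, h2] at h4
  linarith

lemma tail_cell (h : ℝ) (hh : 0 < h) : ∃ Λ amin : ℝ, 0 < Λ ∧ 0 < amin ∧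
    ∀ (X : Type) [Fintype X] [Nonempty X] (w : X → ℝ) (t0 : ℝ), 2 / h ≤ t0 → Shape w t0 →
    ∃ L : ℝ, 0 ≤ L ∧ L ≤ Λ ∧ amin ≤ E (fun x => if L < w x then (1 : ℝ) else 0) ∧
      E (fun x => (if L < w x then (1 : ℝ) else 0) * (w x - L) ^ 2) ≤
        16 * h ^ 2 * E (fun x => if L < w x then (1 : ℝ) else 0) := by
  have hy : 2 * Real.exp (-2) < 1 := by
    have := Real.add_one_le_exp 2
    rw [Real.exp_neg, ← div_eq_mul_inv, div_lt_one (Real.exp_pos _)]; linarith
  obtain ⟨n, hn⟩ := exists_pow_lt_of_lt_one (x := 1 / (h ^ 2 * Real.exp ((2 / h) ^ 2)))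
    (by positivity) hy
  refine ⟨n * h + 1, (1 / 2) ^ n / (32 * h ^ 2), by positivity, by positivity, ?_⟩
  intro X _ _ w t0 ht0 hs
  obtain ⟨h1, h2, h3⟩ := hs
  let G : ℕ → ℝ := fun j => E (fun x => max (w x - j * h) 0 ^ 2)
  have G0 : G 0 = 1 / 2 := by
    have a1 := h1 (fun y => max y 0 ^ 2)
    have a2 : E (fun x => max (w x) 0 ^ 2 + max (- w x) 0 ^ 2) = E (fun x => w x ^ 2) := by
      refine E_congr fun x => ?_
      rcases le_total (w x) 0 with hx | hx
      · rw [max_eq_right hx, max_eq_left (by linarith)]; ring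
      · rw [max_eq_left hx, max_eq_right (by linarith)]; ring
    rw [E_add, a1, h2] at a2
    simp only [G, Nat.cast_zero, zero_mul, sub_zero]
    linarith
  have Gn : G n < (1 / 2) ^ n / 2 := by
    have a1 : G n ≤ E (fun x => (h ^ 2 / 2 * Real.exp (-2) ^ n) * Real.exp (2 / h * w x)) := by
      refine E_mono fun x => ?_
      have b0 : Real.exp (-2) ^ n * Real.exp (2 / h * w x) = Real.exp (2 / h * (w x - n * h)) := by
        rw [← Real.exp_nat_mul, ← Real.exp_add]; congr 1; field_simp; ring
      rw [mul_assoc, b0]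
      rcases le_total (w x - n * h) 0 with hx | hx
      · rw [max_eq_right hx, zero_pow two_ne_zero]; positivity
      · rw [max_eq_left hx]
        have b1 := Real.pow_div_factorial_le_exp (x := 2 / h * (w x - n * h)) (by positivity) 2
        have b2 : (w x - n * h) ^ 2 / 2 * (4 / h ^ 2) =
            (2 / h * (w x - n * h)) ^ 2 / (Nat.factorial 2 : ℝ) := by
          simp only [Nat.factorial_two]; push_cast; field_simp; ring
        rw [← b2] at b1
        have b3 : (w x - n * h) ^ 2 ≤ h ^ 2 / 2 * ((w x - n * h) ^ 2 / 2 * (4 / h ^ 2)) := by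
          apply le_of_eq; field_simp; ring
        exact b3.trans (by gcongr)
    rw [E_mul_left] at a1
    have a2 := h3 (2 / h) (by rwa [abs_of_pos (by positivity)])
    have a3 : G n ≤ h ^ 2 / 2 * Real.exp (-2) ^ n * Real.exp ((2 / h) ^ 2) :=
      a1.trans (by gcongr)
    rw [lt_div_iff₀ (by positivity), mul_pow] at hn
    have a4 : (2 : ℝ) ^ n * (1 / 2) ^ n = 1 := by rw [← mul_pow]; simp
    have a5 : (0 : ℝ) < (1 / 2) ^ n := by positivity
    have a6 := mul_lt_mul_of_pos_right hn a5
    have a7 : 2 ^ n * Real.exp (-2) ^ n * (h ^ 2 * Real.exp ((2 / h) ^ 2)) * (1 / 2) ^ n =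
      (2 ^ n * (1 / 2) ^ n) * (Real.exp (-2) ^ n * (h ^ 2 * Real.exp ((2 / h) ^ 2))) := by ring
    rw [a7, a4] at a6
    linarith
  obtain ⟨j, hj, hj1, hj2⟩ : ∃ j, j < n ∧ (1 / 2) ^ j / 2 ≤ G j ∧ G (j + 1) ≤ G j / 2 := by
    by_contra hc
    push Not at hc
    have : ∀ j, j ≤ n → (1 / 2) ^ j / 2 ≤ G j := by
      intro j
      induction j with
      | zero => intro _; rw [G0]; simp
      | succ j ih =>
        intro hj
        have b1 := ih (by omega)
        have b2 := hc j (by omega) b1
        rw [pow_succ]; linarith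
    linarith [this n le_rfl]
  set P := E (fun x => if (j : ℝ) * h < w x then (1 : ℝ) else 0) with hP
  have key : G j ≤ 16 * h ^ 2 * P := by
    have : E (fun x => max (w x - j * h) 0 ^ 2 - max (w x - ((j + 1 : ℕ) : ℝ) * h) 0 ^ 2) ≤
        E (fun x => (1 / 4) * max (w x - j * h) 0 ^ 2 +
          4 * h ^ 2 * if (j : ℝ) * h < w x then (1 : ℝ) else 0) := by
      refine E_mono fun x => ?_
      push_cast
      split_ifs with hx
      · rw [max_eq_left (by linarith)]
        rcases le_total (w x - (j + 1) * h) 0 with hx' | hx'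
        · rw [max_eq_right hx']
          nlinarith [mul_nonneg (by linarith : 0 ≤ w x - j * h) (by linarith : 0 ≤ h - (w x - j * h)), mul_nonneg hh.le (by linarith : 0 ≤ h - (w x - j * h)), sq_nonneg h]
        · rw [max_eq_left hx']
          nlinarith [sq_nonneg ((w x - j * h) / 2 - 2 * h), sq_nonneg h]
      · rw [max_eq_right (by linarith)]
        nlinarith [sq_nonneg (max (w x - (j + 1) * h) 0)]
    rw [E_sub, E_add, E_mul_left, E_mul_left] at this
    change G j - G (j + 1) ≤ 1 / 4 * G j + 4 * h ^ 2 * P at this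
    linarith
  refine ⟨j * h, by positivity, ?_, ?_, ?_⟩
  · have : (j : ℝ) ≤ n := by exact_mod_cast hj.le
    nlinarith
  · rw [div_le_iff₀ (by positivity)]
    have : ((1 : ℝ) / 2) ^ n ≤ (1 / 2) ^ j := pow_le_pow_of_le_one (by norm_num) (by norm_num) hj.le
    nlinarith
  · refine le_trans (le_of_eq (E_congr fun x => ?_)) key
    split_ifs with hx
    · rw [max_eq_left (by linarith)]; ring
    · rw [max_eq_right (by linarith)]; ring

set_option maxHeartbeats 1600000 in
lemma cells (ε : ℝ) (hε : 0 < ε) : ∃ (t0 b : ℝ) (m : ℕ), 0 < b ∧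
    ∀ (X : Type) [Fintype X] [Nonempty X] (w : X → ℝ), Shape w t0 → Gad w 1 ε b m := by
  classical
  let h : ℝ := min 1 (ε / 96)
  have hh : 0 < h := by positivity
  have hh2 : 32 * h ^ 2 ≤ ε / 3 := by
    have a1 : h ≤ 1 := min_le_left _ _
    have a2 : h ≤ ε / 96 := min_le_right _ _
    nlinarith
  obtain ⟨Λ, amin, hΛ, hamin, H⟩ := tail_cell h hh
  obtain ⟨M, hM⟩ := exists_nat_gt (max 1 (15 * Λ ^ 2 / ε))
  have hM1 : (1 : ℝ) < M := (le_max_left _ _).trans_lt hM
  have hM2 : 15 * Λ ^ 2 < M * ε := by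
    have := (le_max_right _ _).trans_lt hM
    rwa [div_lt_iff₀ hε] at this
  let δ : ℝ := Λ / M
  have hδ : 0 < δ := by positivity
  have hδ2 : (2 * M + 3) * δ ^ 2 ≤ ε / 3 := by
    have : (2 * M + 3) * δ ^ 2 = (2 * M + 3) * Λ ^ 2 / M ^ 2 := by simp only [δ]; field_simp
    rw [this, div_le_iff₀ (by positivity)]
    have : (2 * M + 3) * Λ ^ 2 ≤ 5 * M * Λ ^ 2 := by gcongr; linarith
    nlinarith
  let p0 : ℝ := min 1 (min amin (ε / 3 * amin / ((2 * M + 3) * (4 * Λ ^ 2))))
  have hp0 : 0 < p0 := by positivity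
  have hp1 : p0 ≤ 1 := min_le_left _ _
  have hp2 : p0 ≤ amin := (min_le_right _ _).trans (min_le_left _ _)
  have hp3 : p0 * ((2 * M + 3) * (4 * Λ ^ 2)) ≤ ε / 3 * amin := by
    rw [← le_div_iff₀ (by positivity)]
    exact (min_le_right _ _).trans (min_le_right _ _)
  refine ⟨2 / h, p0 ^ (2 * M + 3), 2 * M + 3, by positivity, ?_⟩
  intro X _ _ w hs
  obtain ⟨L, hL0, hL1, hP1, hP2⟩ := H X w _ le_rfl hs
  let raw : ℝ → ℤ := fun y => if L < y then M + 1 else if y < -L then -(M + 1) else ⌊y / δ⌋
  have hmid : ∀ y : ℝ, ¬ L < y → ¬ y < -L → -(M : ℤ) ≤ ⌊y / δ⌋ ∧ ⌊y / δ⌋ ≤ M := by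
    intro y h1 h2
    push Not at h1 h2
    have e : (M : ℝ) * δ = Λ := by simp only [δ]; field_simp
    constructor
    · rw [Int.le_floor, le_div_iff₀ hδ]; push_cast; linarith
    · have : y / δ ≤ M := by rw [div_le_iff₀ hδ]; linarith
      have h3 := Int.floor_le_floor this
      simpa using h3
  have hraw : ∀ y, raw y ∈ Icc (-(M + 1 : ℤ)) (M + 1) := by
    intro y
    simp only [raw, mem_Icc]
    split_ifs with h1 h2
    · omega
    · omega
    · have := hmid y h1 h2; omega
  have htop : ∀ y, raw y = M + 1 ↔ L < y := by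
    intro y
    simp only [raw]
    split_ifs with h1 h2
    · simp [h1]
    · simp only [h1, iff_false]; omega
    · have := hmid y h1 h2; simp only [h1, iff_false]; omega
  have hbot : ∀ y, raw y = -(M + 1) ↔ L < -y := by
    intro y
    simp only [raw]
    split_ifs with h1 h2
    · have : ¬ L < -y := by linarith
      simp only [this, iff_false]; omega
    · have : L < -y := by linarith
      simp [this]
    · have := hmid y h1 h2
      have : ¬ L < -y := by intro h3; apply h2; linarith
      simp only [this, iff_false]; omega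
  let A : Finset ℤ := (Icc (-(M + 1 : ℤ)) (M + 1)).filter
    (fun z => p0 ≤ E (fun x => if raw (w x) = z then (1 : ℝ) else 0))
  have hPb : E (fun x => if L < - w x then (1 : ℝ) else 0) =
      E (fun x => if L < w x then (1 : ℝ) else 0) := hs.1 (fun y => if L < y then 1 else 0)
  have topA : ((M : ℤ) + 1) ∈ A := by
    simp only [A, mem_filter, mem_Icc, htop]
    exact ⟨by omega, hp2.trans hP1⟩
  have botA : (-((M : ℤ) + 1)) ∈ A := by
    simp only [A, mem_filter, mem_Icc, hbot, hPb]
    exact ⟨by omega, hp2.trans hP1⟩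
  have hAcard : A.card ≤ 2 * M + 3 := by
    refine (card_filter_le _ _).trans ?_
    rw [Int.card_Icc]; omega
  have : Nontrivial A := ⟨⟨⟨_, topA⟩, ⟨_, botA⟩, by simp only [ne_eq, Subtype.mk.injEq]; omega⟩⟩
  let c : ℝ → A := fun y => if hy : raw y ∈ A then ⟨raw y, hy⟩ else ⟨_, topA⟩
  have hc1 : ∀ y (a : A), raw y = a → c y = a := by
    intro y a hy
    have : raw y ∈ A := hy ▸ a.2
    simp only [c, dif_pos this]
    exact Subtype.ext hy
  have hc2 : ∀ y (a : A), (a : ℤ) ≠ M + 1 → c y = a → raw y = a := by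
    intro y a ha hy
    simp only [c] at hy
    split_ifs at hy with h1
    · rw [← hy]
    · exact absurd (by rw [← hy]) ha
  have hcp : ∀ a : A, E (fun x => if raw (w x) = a then (1 : ℝ) else 0) ≤
      E (fun x => if c (w x) = a then (1 : ℝ) else 0) := by
    intro a
    refine E_mono fun x => ?_
    by_cases h1 : raw (w x) = a
    · simp [h1, hc1 _ _ h1]
    · simp only [h1, if_false]; split_ifs <;> simp
  let z : A → ℝ := fun a => if (a : ℤ) = M + 1 then L else if (a : ℤ) = -(M + 1) then -L
    else ((a : ℤ) : ℝ) * δ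
  let e : A → ℝ := fun a => δ ^ 2 + (if a = ⟨_, topA⟩ then 16 * h ^ 2 + ε / 3 else 0) +
    (if a = ⟨_, botA⟩ then 16 * h ^ 2 else 0)
  have hG := gad_det w c z e p0 hp0 (fun a => (mem_filter.1 a.2).2.trans (hcp a)) ?_
  · refine hG.mono ?_ ?_ (by simpa using hAcard)
    · simp only [e, sum_add_distrib, sum_ite_eq', mem_univ, if_true, sum_const, card_univ,
        Fintype.card_coe, nsmul_eq_mul]
      have : (A.card : ℝ) ≤ 2 * M + 3 := by exact_mod_cast hAcard
      nlinarith [sq_nonneg δ]
    · exact pow_le_pow_of_le_one hp0.le hp1 (by simpa using hAcard)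
  · intro a
    have hEa : 0 ≤ E (fun x => if c (w x) = a then (1 : ℝ) else 0) :=
      E_nonneg fun x => by split_ifs <;> simp
    by_cases ha : (a : ℤ) = M + 1
    · have ha' : a = ⟨_, topA⟩ := Subtype.ext ha
      have hz : z a = L := by simp only [z, if_pos ha]
      have b1 : E (fun x => (if c (w x) = a then (1 : ℝ) else 0) * (w x - z a) ^ 2) ≤
          E (fun x => (if L < w x then (1 : ℝ) else 0) * (w x - L) ^ 2 +
            4 * Λ ^ 2 * ∑ u ∈ Icc (-(M + 1 : ℤ)) (M + 1) \ A,
              if raw (w x) = u then (1 : ℝ) else 0) := by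
        refine E_mono fun x => ?_
        have s0 : 0 ≤ ∑ u ∈ Icc (-(M + 1 : ℤ)) (M + 1) \ A,
            if raw (w x) = u then (1 : ℝ) else 0 := sum_nonneg fun u _ => by split_ifs <;> simp
        rw [hz]
        by_cases h1 : raw (w x) ∈ A
        · by_cases h2 : c (w x) = a
          · have : raw (w x) = M + 1 := by
              simp only [c, dif_pos h1] at h2
              rw [← ha, ← h2]
            rw [if_pos h2, if_pos ((htop _).1 this)]
            nlinarith [mul_nonneg (sq_nonneg Λ) s0]
          · rw [if_neg h2, zero_mul]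
            have : 0 ≤ (if L < w x then (1 : ℝ) else 0) * (w x - L) ^ 2 := by
              split_ifs <;> positivity
            nlinarith [mul_nonneg (sq_nonneg Λ) s0]
        · have h3 : ¬ L < w x := by rw [← htop]; intro h; exact h1 (h ▸ topA)
          have h4 : ¬ L < - w x := by rw [← hbot]; intro h; exact h1 (h ▸ botA)
          push Not at h3 h4
          rw [sum_ite_eq, if_pos (mem_sdiff.2 ⟨hraw _, h1⟩), if_neg (not_lt.2 h3)]
          have : (w x - L) ^ 2 ≤ 4 * Λ ^ 2 := by nlinarith
          split_ifs <;> nlinarith [sq_nonneg Λ]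
      rw [E_add, E_mul_left, E_sum] at b1
      have b2 : ∑ u ∈ Icc (-(M + 1 : ℤ)) (M + 1) \ A,
          E (fun x => if raw (w x) = u then (1 : ℝ) else 0) ≤ (2 * M + 3) * p0 := by
        refine (sum_le_card_nsmul _ _ p0 fun u hu => ?_).trans ?_
        · obtain ⟨hu1, hu2⟩ := mem_sdiff.1 hu
          simp only [A, mem_filter, hu1, true_and, not_le] at hu2
          exact hu2.le
        · rw [nsmul_eq_mul]
          refine mul_le_mul_of_nonneg_right ?_ hp0.le
          have : (Icc (-(M + 1 : ℤ)) (M + 1) \ A).card ≤ 2 * M + 3 := by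
            refine (card_le_card sdiff_subset).trans ?_
            rw [Int.card_Icc]; omega
          exact_mod_cast this
      have b3 := hcp a
      simp only [ha, htop] at b3
      have b4 : 16 * h ^ 2 + ε / 3 ≤ e a := by
        simp only [e, if_pos ha']
        split_ifs <;> nlinarith [sq_nonneg δ, sq_nonneg h]
      set Pc := E (fun x => if c (w x) = a then (1 : ℝ) else 0)
      set P := E (fun x => if L < w x then (1 : ℝ) else 0)
      have b5 := mul_le_mul_of_nonneg_left b2 (by positivity : 0 ≤ 4 * Λ ^ 2)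
      have b6 := mul_le_mul_of_nonneg_right b4 hEa
      have b7 := mul_le_mul_of_nonneg_left b3 (by positivity : 0 ≤ 16 * h ^ 2)
      have b8 := mul_le_mul_of_nonneg_left (hP1.trans b3) (by positivity : 0 ≤ ε / 3)
      linarith
    · by_cases hb : (a : ℤ) = -(M + 1)
      · have hb' : a = ⟨_, botA⟩ := Subtype.ext hb
        have hz : z a = -L := by simp only [z, if_neg ha, if_pos hb]
        have hiff : ∀ y, c y = a ↔ L < -y := by
          intro y
          rw [← hbot, ← hb]
          exact ⟨hc2 y a ha, hc1 y a⟩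
        simp only [hiff, hz]
        have b1 := hs.1 (fun y => (if L < y then (1 : ℝ) else 0) * (y - L) ^ 2)
        have b2 : E (fun x => (if L < - w x then (1 : ℝ) else 0) * (w x - -L) ^ 2) =
            E (fun x => (if L < - w x then (1 : ℝ) else 0) * (- w x - L) ^ 2) :=
          E_congr fun x => by ring
        rw [b2, b1, hPb]
        refine hP2.trans (mul_le_mul_of_nonneg_right ?_ (hamin.le.trans hP1))
        simp only [e, if_pos hb']
        split_ifs <;> nlinarith [sq_nonneg δ, sq_nonneg h]
      · have hz : z a = ((a : ℤ) : ℝ) * δ := by simp only [z, if_neg ha, if_neg hb]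
        have b1 : E (fun x => (if c (w x) = a then (1 : ℝ) else 0) * (w x - z a) ^ 2) ≤
            E (fun x => δ ^ 2 * (if c (w x) = a then (1 : ℝ) else 0)) := by
          refine E_mono fun x => ?_
          split_ifs with h1
          · have h2 := hc2 _ a ha h1
            have h3 : ¬ L < w x := by rw [← htop, h2]; exact ha
            have h4 : ¬ w x < -L := by
              intro h5
              have : L < - w x := by linarith
              rw [← hbot, h2] at this; exact hb this
            simp only [raw, if_neg h3, if_neg h4] at h2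
            have f1 := Int.floor_le (w x / δ)
            have f2 := Int.lt_floor_add_one (w x / δ)
            rw [h2] at f1 f2
            rw [le_div_iff₀ hδ] at f1
            rw [div_lt_iff₀ hδ] at f2
            rw [hz]
            nlinarith
          · simp
        rw [E_mul_left] at b1
        refine b1.trans (mul_le_mul_of_nonneg_right ?_ hEa)
        simp only [e]
        split_ifs <;> nlinarith [sq_nonneg δ, sq_nonneg h]

end Vale.Agent.P047
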