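import Vale.Agent.P047.Moments

/-! The determinant gadget and the halving step. -/

namespace Vale.Agent.P047

open Finset

variable {X : Type} [Fintype X] [Nonempty X]

/-- a signed gadget of codegree `k` on which the sum is concentrated -/
def Gad (w : X → ℝ) (k : ℕ) (e b : ℝ) (N : ℕ) : Prop :=
  ∃ (B : Type) (_ : Fintype B) (_ : DecidableEq B) (r : ℕ) (η : (B → ℝ) → ℝ) (c : ℝ),
    Fintype.card B ≤ N ∧ r + k = Fintype.card B ∧ η ∈ J B ℝ r ∧
    (∀ y, η y = 0 ∨ η y = 1 ∨ η y = -1) ∧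
    (∀ ψ : ℝ → ℝ, E (fun x : B → X => η (fun i => w (x i)) * ψ (∑ i, w (x i))) = 0) ∧
    b ≤ E (fun x : B → X => η (fun i => w (x i)) ^ 2) ∧
    E (fun x : B → X => η (fun i => w (x i)) ^ 2 * (∑ i, w (x i) - c)) = 0 ∧
    E (fun x : B → X => η (fun i => w (x i)) ^ 2 * (∑ i, w (x i) - c) ^ 2) ≤
      e * E (fun x : B → X => η (fun i => w (x i)) ^ 2)

lemma J_inl {I K Ω : Type} {r : ℕ} {f : (I → Ω) → ℝ} (hf : f ∈ J I Ω r) :
    (fun x : I ⊕ K → Ω => f (fun i => x (Sum.inl i))) ∈ J (I ⊕ K) Ω r :=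
  J_pull Sum.inl (fun _ a => a) hf

lemma J_inr {I K Ω : Type} {r : ℕ} {f : (K → Ω) → ℝ} (hf : f ∈ J K Ω r) :
    (fun x : I ⊕ K → Ω => f (fun i => x (Sum.inr i))) ∈ J (I ⊕ K) Ω r :=
  J_pull Sum.inr (fun _ a => a) hf

omit [Nonempty X] in
lemma Gad.mul {w : X → ℝ} {k k' N N' : ℕ} {e e' b b' : ℝ} (hb : 0 ≤ b) (hb' : 0 ≤ b')
    (h : Gad w k e b N) (h' : Gad w k' e' b' N') : Gad w (k + k') (e + e') (b * b') (N + N') := by
  obtain ⟨B, _, _, r, η, c, hN, hr, hJ, hv, h0, h1, h2, h3⟩ := h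
  obtain ⟨B', _, _, r', η', c', hN', hr', hJ', hv', h0', h1', h2', h3'⟩ := h'
  refine ⟨B ⊕ B', inferInstance, inferInstance, r + r',
    fun y => η (fun i => y (Sum.inl i)) * η' (fun i => y (Sum.inr i)), c + c', ?_, ?_,
    J_mul (J_inl hJ) (J_inr hJ'), ?_, ?_, ?_, ?_, ?_⟩
  · rw [Fintype.card_sum]; omega
  · rw [Fintype.card_sum]; omega
  · intro y
    rcases hv (fun i => y (Sum.inl i)) with h | h | h <;>
      rcases hv' (fun i => y (Sum.inr i)) with h' | h' | h' <;> simp [h, h']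
  · intro ψ
    rw [E_sumElim]
    simp only [Fintype.sum_sum_type, Sum.elim_inl, Sum.elim_inr, mul_assoc, E_mul_left]
    have : ∀ x : B → X, E (fun y : B' → X => η' (fun i => w (y i)) *
        ψ (∑ i, w (x i) + ∑ i, w (y i))) = 0 := fun x => h0' (fun s => ψ (∑ i, w (x i) + s))
    simp only [this, mul_zero, E_zero]
  · rw [E_sumElim]
    simp only [Sum.elim_inl, Sum.elim_inr, mul_pow, E_mul_left, E_mul_right]
    exact mul_le_mul h1 h1' hb' (hb.trans h1)
  · rw [E_sumElim]
    simp only [Fintype.sum_sum_type, Sum.elim_inl, Sum.elim_inr]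
    have : ∀ x : B → X, E (fun y : B' → X => (η (fun i => w (x i)) * η' (fun i => w (y i))) ^ 2 *
        (∑ i, w (x i) + ∑ i, w (y i) - (c + c'))) =
        (η (fun i => w (x i)) ^ 2 * (∑ i, w (x i) - c)) *
          E (fun y : B' → X => η' (fun i => w (y i)) ^ 2) := by
      intro x
      have : E (fun y : B' → X => (η (fun i => w (x i)) * η' (fun i => w (y i))) ^ 2 *
        (∑ i, w (x i) + ∑ i, w (y i) - (c + c'))) = E (fun y : B' → X =>
          (η (fun i => w (x i)) ^ 2 * (∑ i, w (x i) - c)) * η' (fun i => w (y i)) ^ 2 +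
          η (fun i => w (x i)) ^ 2 * (η' (fun i => w (y i)) ^ 2 * (∑ i, w (y i) - c'))) :=
        E_congr fun y => by ring
      rw [this, E_add, E_mul_left, E_mul_left, h2']; simp
    simp only [this]
    rw [E_mul_right, h2, zero_mul]
  · rw [E_sumElim, E_sumElim (fun x : B ⊕ B' → X =>
      (η (fun i => w (x (Sum.inl i))) * η' (fun i => w (x (Sum.inr i)))) ^ 2)]
    simp only [Fintype.sum_sum_type, Sum.elim_inl, Sum.elim_inr]
    set m' := E (fun y : B' → X => η' (fun i => w (y i)) ^ 2) with hm'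
    have hm'0 : 0 ≤ m' := hb'.trans h1'
    have : ∀ x : B → X, E (fun y : B' → X => (η (fun i => w (x i)) * η' (fun i => w (y i))) ^ 2 *
        (∑ i, w (x i) + ∑ i, w (y i) - (c + c')) ^ 2) ≤
        (η (fun i => w (x i)) ^ 2 * (∑ i, w (x i) - c) ^ 2) * m' +
          η (fun i => w (x i)) ^ 2 * (e' * m') := by
      intro x
      have : E (fun y : B' → X => (η (fun i => w (x i)) * η' (fun i => w (y i))) ^ 2 *
        (∑ i, w (x i) + ∑ i, w (y i) - (c + c')) ^ 2) = E (fun y : B' → X =>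
          (η (fun i => w (x i)) ^ 2 * (∑ i, w (x i) - c) ^ 2) * η' (fun i => w (y i)) ^ 2 +
          ((2 * η (fun i => w (x i)) ^ 2 * (∑ i, w (x i) - c)) *
            (η' (fun i => w (y i)) ^ 2 * (∑ i, w (y i) - c')) +
          η (fun i => w (x i)) ^ 2 * (η' (fun i => w (y i)) ^ 2 * (∑ i, w (y i) - c') ^ 2))) :=
        E_congr fun y => by ring
      rw [this, E_add, E_add, E_mul_left, E_mul_left, E_mul_left, h2', mul_zero, zero_add]
      gcongr
    refine (E_mono this).trans ?_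
    simp only [mul_pow, E_mul_left]
    rw [E_add, E_mul_right, E_mul_right, E_mul_right]
    nlinarith [mul_le_mul_of_nonneg_right h3 hm'0]

omit [Nonempty X] in
lemma Gad.pow {w : X → ℝ} {N : ℕ} {e b : ℝ} (hb : 0 ≤ b) (h : Gad w 1 e b N) (k : ℕ) :
    Gad w (k + 1) ((k + 1 : ℕ) * e) (b ^ (k + 1)) ((k + 1) * N) := by
  induction k with
  | zero => simpa using h
  | succ k ih =>
    have := ih.mul (pow_nonneg hb _) hb h
    convert this using 1
    · push_cast; ring
    · ring
    · ring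

lemma gad_det {A : Type} [Fintype A] [DecidableEq A] [Nontrivial A] (w : X → ℝ) (c : ℝ → A)
    (z e : A → ℝ) (p0 : ℝ) (hp0 : 0 < p0)
    (hp : ∀ a, p0 ≤ E (fun x => if c (w x) = a then (1 : ℝ) else 0))
    (he : ∀ a, E (fun x => (if c (w x) = a then (1 : ℝ) else 0) * (w x - z a) ^ 2) ≤
      e a * E (fun x => if c (w x) = a then (1 : ℝ) else 0)) :
    Gad w 1 (∑ a, e a) (p0 ^ Fintype.card A) (Fintype.card A) := by
  classical
  let M : (A → ℝ) → Matrix A A ℝ := fun y => Matrix.of fun i a => if c (y i) = a then 1 else 0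
  let θ : (A → ℝ) → ℝ := fun y => ∑ σ : Equiv.Perm A, ∏ i, if c (y i) = σ i then (1 : ℝ) else 0
  have hdet : ∀ y, (M y).det = ∑ σ : Equiv.Perm A, ((Equiv.Perm.sign σ : ℤ) : ℝ) *
      ∏ i, if c (y i) = σ i then (1 : ℝ) else 0 := by
    intro y
    rw [← Matrix.det_transpose, Matrix.det_apply']
    rfl
  have hcase : ∀ y, ((M y).det = 0 ∧ θ y = 0) ∨ (((M y).det = 1 ∨ (M y).det = -1) ∧ θ y = 1) := by
    intro y
    by_cases h : ∃ σ : Equiv.Perm A, ∀ i, c (y i) = σ i
    · obtain ⟨σ, hσ⟩ := h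
      right
      have key : ∀ τ : Equiv.Perm A, τ ≠ σ → (∏ i, if c (y i) = τ i then (1 : ℝ) else 0) = 0 := by
        intro τ hτ
        obtain ⟨i, hi⟩ : ∃ i, τ i ≠ σ i := by
          by_contra hh
          push Not at hh
          exact hτ (Equiv.ext hh)
        exact prod_eq_zero (mem_univ i) (by rw [hσ, if_neg hi.symm])
      have k1 : (∏ i, if c (y i) = σ i then (1 : ℝ) else 0) = 1 := by simp [hσ]
      constructor
      · rw [hdet, sum_eq_single σ (fun τ _ hτ => by rw [key τ hτ, mul_zero]) (by simp), k1]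
        rcases Int.units_eq_one_or (Equiv.Perm.sign σ) with h | h <;> simp [h]
      · simp only [θ]
        rw [sum_eq_single σ (fun τ _ hτ => key τ hτ) (by simp), k1]
    · left
      push Not at h
      have key : ∀ τ : Equiv.Perm A, (∏ i, if c (y i) = τ i then (1 : ℝ) else 0) = 0 := by
        intro τ
        obtain ⟨i, hi⟩ := h τ
        exact prod_eq_zero (mem_univ i) (if_neg hi)
      constructor
      · rw [hdet]; simp [key]
      · simp only [θ, key]; simp
  have hsq : ∀ y, (M y).det ^ 2 = θ y := by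
    intro y
    rcases hcase y with ⟨h1, h2⟩ | ⟨h1 | h1, h2⟩ <;> simp [h1, h2]
  -- cell probabilities and means
  let p : A → ℝ := fun a => E (fun x => if c (w x) = a then (1 : ℝ) else 0)
  have hppos : ∀ a, 0 < p a := fun a => hp0.trans_le (hp a)
  let μ : A → ℝ := fun a => E (fun x => (if c (w x) = a then (1 : ℝ) else 0) * w x) / p a
  let v : A → ℝ := fun a =>
    E (fun x => (if c (w x) = a then (1 : ℝ) else 0) * (w x - μ a) ^ 2) / p a
  have hμ : ∀ a, E (fun x => (if c (w x) = a then (1 : ℝ) else 0) * (w x - μ a)) = 0 := by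
    intro a
    simp only [mul_sub, E_sub, E_mul_right]
    simp only [μ]
    rw [mul_div_cancel₀ _ (hppos a).ne', sub_self]
  have hve : ∀ a, v a ≤ e a := by
    intro a
    simp only [v]
    rw [div_le_iff₀ (hppos a)]
    refine le_trans ?_ (he a)
    have : E (fun x => (if c (w x) = a then (1 : ℝ) else 0) * (w x - z a) ^ 2) =
        E (fun x => (if c (w x) = a then (1 : ℝ) else 0) * (w x - μ a) ^ 2 +
          ((2 * (μ a - z a)) * ((if c (w x) = a then (1 : ℝ) else 0) * (w x - μ a)) +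
          (μ a - z a) ^ 2 * (if c (w x) = a then (1 : ℝ) else 0))) := E_congr fun x => by ring
    rw [this, E_add, E_add, E_mul_left, E_mul_left, hμ]
    have := mul_nonneg (sq_nonneg (μ a - z a)) (hppos a).le
    simp only [p] at this
    linarith
  have hw : ∀ σ : Equiv.Perm A,
      E (fun x : A → X => ∏ i, if c (w (x i)) = σ i then (1 : ℝ) else 0) = ∏ a, p a ∧
      E (fun x : A → X => (∏ i, if c (w (x i)) = σ i then (1 : ℝ) else 0) *
        (∑ i, w (x i) - ∑ a, μ a)) = 0 ∧
      E (fun x : A → X => (∏ i, if c (w (x i)) = σ i then (1 : ℝ) else 0) *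
        (∑ i, w (x i) - ∑ a, μ a) ^ 2) = (∑ a, v a) * ∏ a, p a := by
    intro σ
    have h := E_weighted (fun i x => if c (w x) = σ i then (1 : ℝ) else 0)
      (fun i x => w x - μ (σ i)) (fun i => p (σ i)) (fun i => v (σ i)) (fun _ => rfl)
      (fun i => hμ _) (fun i => by simp only [v]; rw [div_mul_cancel₀ _ (hppos _).ne']) univ
    simp only [sum_sub_distrib, Equiv.sum_comp σ μ, Equiv.sum_comp σ v, Equiv.prod_comp σ p] at h
    refine ⟨?_, h.1, h.2⟩
    rw [E_pi_prod (fun i x => if c (w x) = σ i then (1 : ℝ) else 0), ← Equiv.prod_comp σ p]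
  have hθ : E (fun x : A → X => θ (fun i => w (x i))) = ∑ _σ : Equiv.Perm A, ∏ a, p a := by
    simp only [θ]
    rw [E_sum]
    exact sum_congr rfl fun σ _ => (hw σ).1
  obtain ⟨a0, a1, h01⟩ := exists_pair_ne A
  have hcard : 1 ≤ Fintype.card A := Fintype.card_pos_iff.2 ⟨a0⟩
  refine ⟨A, inferInstance, inferInstance, Fintype.card A - 1, fun y => (M y).det, ∑ a, μ a,
    le_rfl, by omega, ?_, ?_, ?_, ?_, ?_, ?_⟩
  · have : (fun y => (M y).det) = fun y => ∑ σ : Equiv.Perm A, ((Equiv.Perm.sign σ : ℤ) : ℝ) *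
        ∏ a ∈ univ.erase a0, if c (y (σ a)) = a then (1 : ℝ) else 0 := by
      ext y
      have h1 := Matrix.det_updateCol_sum (M y) a0 (fun _ => (1 : ℝ))
      simp only [one_smul] at h1
      rw [← h1, Matrix.det_apply']
      refine sum_congr rfl fun σ _ => ?_
      congr 1
      rw [← mul_prod_erase univ _ (mem_univ a0)]
      simp only [Matrix.updateCol_self]
      have : ∑ i, M y (σ a0) i = 1 := by simp [M]
      rw [this, one_mul]
      refine prod_congr rfl fun a ha => ?_
      rw [Matrix.updateCol_ne (ne_of_mem_erase ha)]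
      rfl
    rw [this]
    refine J_sum _ fun σ _ => J_smul _ ?_
    refine J_of_dep (univ.erase (σ a0)) (by simp) ?_
    intro x y h
    refine prod_congr rfl fun a ha => ?_
    rw [h (σ a) (by simpa using ne_of_mem_erase ha)]
  · intro y
    rcases hcase y with ⟨h1, -⟩ | ⟨h1, -⟩
    · exact Or.inl h1
    · exact Or.inr h1
  · intro ψ
    let s : (A → X) ≃ (A → X) := Equiv.arrowCongr (Equiv.swap a0 a1) (Equiv.refl X)
    have h1 := E_equiv s (fun x : A → X => (M (fun i => w (x i))).det * ψ (∑ i, w (x i)))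
    have h2 : E (fun x : A → X => (M (fun i => w (s x i))).det * ψ (∑ i, w (s x i))) =
        - E (fun x : A → X => (M (fun i => w (x i))).det * ψ (∑ i, w (x i))) := by
      rw [← E_neg]
      refine E_congr fun x => ?_
      have e1 : ∑ i, w (s x i) = ∑ i, w (x i) := by
        simp only [s, Equiv.arrowCongr_apply, Equiv.symm_swap, Equiv.coe_refl, Function.comp, id]
        exact Equiv.sum_comp (Equiv.swap a0 a1) (fun i => w (x i))
      have e2 : M (fun i => w (s x i)) = (M (fun i => w (x i))).submatrix (Equiv.swap a0 a1) id := by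
        ext i j; simp [M, s]
      rw [e1, e2, Matrix.det_permute, Equiv.Perm.sign_swap h01]
      simp
    linarith
  · simp only [hsq]
    rw [hθ]
    calc p0 ^ Fintype.card A = ∏ _a : A, p0 := by simp
      _ ≤ ∏ a, p a := prod_le_prod (fun _ _ => hp0.le) fun a _ => hp a
      _ ≤ ∑ _σ : Equiv.Perm A, ∏ a, p a :=
        single_le_sum (f := fun _σ : Equiv.Perm A => ∏ a, p a)
          (fun _ _ => prod_nonneg fun a _ => (hppos a).le) (mem_univ 1)
  · simp only [hsq, θ, sum_mul]
    rw [E_sum]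
    exact sum_eq_zero fun σ _ => (hw σ).2.1
  · simp only [hsq]
    rw [hθ]
    simp only [θ, sum_mul]
    rw [E_sum, ← sum_mul, mul_sum]
    refine sum_le_sum fun σ _ => ?_
    rw [(hw σ).2.2]
    exact mul_le_mul_of_nonneg_right (sum_le_sum fun a _ => hve a)
      (prod_nonneg fun a _ => (hppos a).le)

/-- an integer valued weight of codegree `k` under which the sum is concentrated -/
def St (w : X → ℝ) (k R : ℕ) (κ β : ℝ) (N : ℕ) : Prop :=
  ∃ (I : Type) (_ : Fintype I) (_ : DecidableEq I) (r : ℕ) (G : (I → ℝ) → ℕ) (c : ℝ),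
    0 < Fintype.card I ∧ Fintype.card I ≤ N ∧ r + k = Fintype.card I ∧
    (fun y => (G y : ℝ)) ∈ J I ℝ r ∧ (∀ y, G y ≤ R) ∧
    β ≤ E (fun x : I → X => (G (fun i => w (x i)) : ℝ) * (κ - (∑ i, w (x i) - c) ^ 2))

omit [Nonempty X] in
lemma St.halve {w : X → ℝ} {k R N M : ℕ} {κ β e b : ℝ} (hβ : 0 ≤ β) (hb : 0 ≤ b)
    (h : St w k (2 * R) κ β N) (hg : Gad w k e b M) : St w k R (κ + e) (b / 2 * β) (N + M) := by
  classical
  obtain ⟨I, _, _, r, G, c, hI, hN, hr, hJ, hR, hE⟩ := h
  obtain ⟨B, _, _, r', η, c', hN', hr', hJ', hv, h0, h1, h2, h3⟩ := hg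
  let G' : (I ⊕ B → ℝ) → ℕ := fun y =>
    if η (fun i => y (Sum.inr i)) = 1 then (G (fun i => y (Sum.inl i)) + 1) / 2
    else if η (fun i => y (Sum.inr i)) = -1 then G (fun i => y (Sum.inl i)) / 2 else 0
  have hG' : ∀ y, (G' y : ℝ) = (1 / 2) * ((G (fun i => y (Sum.inl i)) : ℝ) *
      η (fun i => y (Sum.inr i)) ^ 2) + (1 / 2) * (((G (fun i => y (Sum.inl i)) % 2 : ℕ) : ℝ) *
      η (fun i => y (Sum.inr i))) := by
    intro y
    simp only [G']
    generalize G (fun i => y (Sum.inl i)) = g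
    obtain ⟨q, hq | hq⟩ := Nat.even_or_odd' g
    all_goals
      subst hq
      rcases hv (fun i => y (Sum.inr i)) with h | h | h
    · simp [h]
    · have : (2 * q + 1) / 2 = q := by omega
      simp [h, this]
    · have : ¬ (-1 : ℝ) = 1 := by norm_num
      simp [h, this]
    · simp [h]
    · have : (2 * q + 1 + 1) / 2 = q + 1 := by omega
      simp [h, this]; ring
    · have h' : ¬ (-1 : ℝ) = 1 := by norm_num
      have : (2 * q + 1) / 2 = q := by omega
      simp [h, this, h']; ring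
  refine ⟨I ⊕ B, inferInstance, inferInstance, r + Fintype.card B, G', c + c', ?_, ?_, ?_, ?_,
    ?_, ?_⟩
  · rw [Fintype.card_sum]; omega
  · rw [Fintype.card_sum]; omega
  · rw [Fintype.card_sum]; omega
  · simp only [hG']
    refine J_add (J_smul _ (J_mul (J_inl hJ) (J_inr (J_top (fun y => η y ^ 2))))) (J_smul _ ?_)
    have := J_mul (J_inl (K := B) (J_top (fun y : I → ℝ => ((G y % 2 : ℕ) : ℝ)))) (J_inr (I := I) hJ')
    exact J_mono (by omega) this
  · intro y
    have := hR (fun i => y (Sum.inl i))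
    simp only [G']
    split_ifs <;> omega
  · rw [E_sumElim]
    simp only [hG', Fintype.sum_sum_type, Sum.elim_inl, Sum.elim_inr]
    set m' := E (fun y : B → X => η (fun i => w (y i)) ^ 2) with hm'
    have key : ∀ x : I → X, (m' / 2) * ((G (fun i => w (x i)) : ℝ) * (κ - (∑ i, w (x i) - c) ^ 2)) ≤
        E (fun y : B → X => ((1 / 2) * ((G (fun i => w (x i)) : ℝ) * η (fun i => w (y i)) ^ 2) +
          (1 / 2) * (((G (fun i => w (x i)) % 2 : ℕ) : ℝ) * η (fun i => w (y i)))) *
          (κ + e - (∑ i, w (x i) + ∑ i, w (y i) - (c + c')) ^ 2)) := by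
      intro x
      set g : ℝ := (G (fun i => w (x i)) : ℝ) with hg
      set o : ℝ := ((G (fun i => w (x i)) % 2 : ℕ) : ℝ) with ho
      set S : ℝ := ∑ i, w (x i) with hS
      have hg0 : 0 ≤ g := Nat.cast_nonneg _
      have : E (fun y : B → X => ((1 / 2) * (g * η (fun i => w (y i)) ^ 2) +
          (1 / 2) * (o * η (fun i => w (y i)))) *
          (κ + e - (S + ∑ i, w (y i) - (c + c')) ^ 2)) =
          E (fun y : B → X => (g / 2 * (κ + e - (S - c) ^ 2)) * η (fun i => w (y i)) ^ 2 -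
            (g * (S - c)) * (η (fun i => w (y i)) ^ 2 * (∑ i, w (y i) - c')) -
            (g / 2) * (η (fun i => w (y i)) ^ 2 * (∑ i, w (y i) - c') ^ 2) +
            (o / 2) * (η (fun i => w (y i)) *
              (fun s => κ + e - (S + s - (c + c')) ^ 2) (∑ i, w (y i)))) :=
        E_congr fun y => by ring
      rw [this, E_add, E_sub, E_sub, E_mul_left, E_mul_left, E_mul_left, E_mul_left,
        h0 (fun s => κ + e - (S + s - (c + c')) ^ 2), h2, ← hm']
      nlinarith [mul_le_mul_of_nonneg_left h3 hg0]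
    refine le_trans ?_ (E_mono key)
    rw [E_mul_left]
    exact mul_le_mul (by linarith) hE hβ (by linarith)

omit [Nonempty X] in
lemma St.iter {w : X → ℝ} {k N M : ℕ} {κ β e b : ℝ} (hβ : 0 ≤ β) (hb : 0 ≤ b)
    (hg : Gad w k e b M) (j : ℕ) : ∀ R : ℕ, St w k (2 ^ j * R) κ β N →
    St w k R (κ + j * e) ((b / 2) ^ j * β) (N + j * M) := by
  induction j with
  | zero => intro R h; simpa using h
  | succ j ih =>
    intro R h
    have h1 := ih (2 * R) (by rw [← mul_assoc, ← pow_succ]; exact h)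
    have h2 := h1.halve (by positivity) hb hg
    convert h2 using 1
    · push_cast; ring
    · ring
    · ring

end Vale.Agent.P047
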