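import Vale.Agent.P047.Gadget

/-! From junta degree to vanishing Fourier coefficients on the sign cube. -/

namespace Vale.Agent.P047

open Finset

/-- the bit attached to a sign -/
def toB (u : ℤˣ) : Bool := decide (u = 1)

lemma sg_toB (u : ℤˣ) : sg (toB u) = ((u : ℤ) : ℝ) := by
  rcases Int.units_eq_one_or u with h | h <;> subst h <;> simp [sg, toB]

/-- signs and bits -/
def unitsEquiv : ℤˣ ≃ Bool where
  toFun := toB
  invFun b := if b then 1 else -1
  left_inv u := by rcases Int.units_eq_one_or u with h | h <;> subst h <;> simp [toB]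
  right_inv b := by cases b <;> simp [toB]

lemma J_fourier {n D : ℕ} {f : (Fin n → ℤˣ) → ℝ} (hf : f ∈ J (Fin n) ℤˣ D) (S : Finset (Fin n))
    (hS : D < S.card) : ∑ x : Fin n → ℤˣ, f x * ∏ i ∈ S, ((x i : ℤ) : ℝ) = 0 := by
  induction hf using Submodule.span_induction with
  | mem f hf =>
    obtain ⟨T, hT, hf⟩ := hf
    obtain ⟨i, hiS, hiT⟩ := exists_mem_notMem_of_card_lt_card (hT.trans_lt hS)
    let e : (Fin n → ℤˣ) ≃ (Fin n → ℤˣ) :=
      { toFun := fun x => Function.update x i (- x i)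
        invFun := fun x => Function.update x i (- x i)
        left_inv := by intro x; simp
        right_inv := by intro x; simp }
    have h1 := Equiv.sum_comp e (fun x => f x * ∏ i ∈ S, ((x i : ℤ) : ℝ))
    have h2 : ∀ x, f (e x) * ∏ j ∈ S, ((e x j : ℤ) : ℝ) = - (f x * ∏ j ∈ S, ((x j : ℤ) : ℝ)) := by
      intro x
      have a1 : f (e x) = f x := hf _ _ fun j hj => by
        simp only [e, Equiv.coe_fn_mk]
        rw [Function.update_of_ne (by rintro rfl; exact hiT hj)]
      rw [a1, ← mul_prod_erase S _ hiS, ← mul_prod_erase S _ hiS]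
      have a2 : ∏ j ∈ S.erase i, ((e x j : ℤ) : ℝ) = ∏ j ∈ S.erase i, ((x j : ℤ) : ℝ) :=
        prod_congr rfl fun j hj => by
          simp only [e, Equiv.coe_fn_mk]
          rw [Function.update_of_ne (ne_of_mem_erase hj)]
      rw [a2]
      simp [e]
    simp only [h2, sum_neg_distrib] at h1
    linarith
  | zero => simp
  | add f g _ _ h1 h2 => simp [add_mul, sum_add_distrib, h1, h2]
  | smul c f _ h1 => simp [mul_assoc, ← mul_sum, h1]

lemma transfer {n D : ℕ} {f : (Fin n → Bool) → ℝ} (hf : f ∈ J (Fin n) Bool D) :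
    (fun x : Fin n → ℤˣ => f (fun i => toB (x i))) ∈ J (Fin n) ℤˣ D ∧
    ∑ i : Fin n, (∑ x : Fin n → ℤˣ, f (fun i => toB (x i)) *
      ∏ j ∈ ({i} : Finset (Fin n)), ((x j : ℤ) : ℝ)) / 2 ^ n = E (fun x => L x * f x) := by
  refine ⟨J_pull id (fun _ => toB) hf, ?_⟩
  rw [← E_equiv (Equiv.arrowCongr (Equiv.refl (Fin n)) unitsEquiv), ← sum_div, sum_comm]
  simp only [E, prod_singleton]
  congr 1
  · refine sum_congr rfl fun x _ => ?_
    rw [← mul_sum, mul_comm]
    congr 1
    simp only [L]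
    refine sum_congr rfl fun i _ => ?_
    exact (sg_toB (x i)).symm
  · simp

end Vale.Agent.P047
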