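import Vale.Agent.P047.Cells

/-! The variance gain gadget, the amplification loop and the final Boolean function. -/

namespace Vale.Agent.P047

open Finset

/-- integer valued sign -/
noncomputable def tz (y : ℝ) : ℤ := if 0 < y then 1 else if y < 0 then -1 else 0

lemma tz_neg (y : ℝ) : tz (-y) = - tz y := by
  unfold tz
  rcases lt_trichotomy y 0 with h | h | h
  · simp [h, h.not_gt]
  · simp [h]
  · simp [h, h.not_gt]

lemma tz_mul (y : ℝ) : (tz y : ℝ) * y = |y| := by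
  unfold tz
  rcases lt_trichotomy y 0 with h | h | h
  · simp [h, h.not_gt, abs_of_neg h]
  · simp [h]
  · simp [h, abs_of_pos h]

lemma tz_abs (y : ℝ) : |tz y| ≤ 1 := by
  unfold tz; split_ifs <;> simp

set_option maxHeartbeats 800000 in
lemma stage0 {X : Type} [Fintype X] [Nonempty X] {w : X → ℝ} {t0 : ℝ} (ht : 1 ≤ t0)
    (h : Shape w t0) (n a R : ℕ) (ha : a ^ 2 = 3 * n) (hn : 14 * 34 ^ 2 ≤ n)
    (hR : (n + a) ^ 2 ≤ R) : St w (n - 2) R (n - 3) 1 n := by
  have hρ := abs_mean ht h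
  obtain ⟨h1, h2, -⟩ := h
  have odd : ∀ φ : ℝ → ℝ, (∀ y, φ (-y) = - φ y) → E (fun x => φ (w x)) = 0 := by
    intro φ hφ
    have := h1 φ
    simp only [hφ, E_neg] at this
    linarith
  set ρ := E (fun x => |w x|) with hρd
  set q := E (fun x => (tz (w x) : ℝ) ^ 2) with hq
  have hq0 : 0 ≤ q := E_nonneg fun _ => sq_nonneg _
  have hq1 : q ≤ 1 := by
    rw [← E_const (X := X) 1]
    refine E_mono fun x => ?_
    have : |(tz (w x) : ℝ)| ≤ 1 := by exact_mod_cast tz_abs (w x)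
    rw [← sq_abs]
    nlinarith [abs_nonneg (tz (w x) : ℝ)]
  obtain ⟨m10, m01, m20, m11, m02, m21, m12, m22⟩ := E_two_sums (I := Fin n)
    (fun x => (tz (w x) : ℝ)) w q ρ 1 1
    (odd (fun y => (tz y : ℝ)) fun y => by simp [tz_neg]) (odd id fun y => rfl) rfl
    (by simp only [tz_mul]; rfl) h2
    (odd (fun y => (tz y : ℝ) ^ 2 * y) fun y => by simp [tz_neg])
    (odd (fun y => (tz y : ℝ) * y ^ 2) fun y => by simp [tz_neg])
    (by simp only [← mul_pow, tz_mul, sq_abs]; exact h2) univ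
  simp only [card_univ, Fintype.card_fin] at m20 m11 m02 m22
  let G : (Fin n → ℝ) → ℕ := fun y => (∑ i, tz (y i) - a).natAbs ^ 2
  have hG : ∀ y, (G y : ℝ) = (∑ i, (tz (y i) : ℝ) - a) ^ 2 := by
    intro y
    simp only [G]
    rw [Nat.cast_pow, Nat.cast_natAbs]
    push_cast
    rw [sq_abs]
  refine ⟨Fin n, inferInstance, inferInstance, 2, G, - (a * ρ / 2), by simp; omega, by simp,
    by simp; omega, ?_, ?_, ?_⟩
  · have : (fun y : Fin n → ℝ => ∑ i, (tz (y i) : ℝ) - a) ∈ J (Fin n) ℝ 1 :=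
      J_sub (J_sum _ fun i _ => J_coord i (fun s => (tz s : ℝ))) (J_const _ _)
    have h2 := J_mul this this
    have e : (fun y => (G y : ℝ)) = fun y : Fin n → ℝ => (∑ i, (tz (y i) : ℝ) - a) *
        (∑ i, (tz (y i) : ℝ) - a) := by
      ext y; rw [hG, sq]
    rw [e]
    exact h2
  · intro y
    refine le_trans ?_ hR
    refine Nat.pow_le_pow_left ?_ 2
    have b1 : |∑ i, tz (y i)| ≤ n := by
      refine (abs_sum_le_sum_abs _ _).trans ?_
      refine (sum_le_card_nsmul _ _ 1 fun i _ => tz_abs _).trans ?_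
      simp
    rw [abs_le] at b1
    omega
  · simp only [hG]
    set c : ℝ := - (a * ρ / 2) with hc
    set κ : ℝ := (n : ℝ) - 3 with hκ
    have : E (fun x : Fin n → X => (∑ i, (tz (w (x i)) : ℝ) - a) ^ 2 *
        (κ - (∑ i, w (x i) - c) ^ 2)) = E (fun x : Fin n → X =>
        (κ - c ^ 2) * (∑ i, (tz (w (x i)) : ℝ)) ^ 2 -
        (∑ i, (tz (w (x i)) : ℝ)) ^ 2 * (∑ i, w (x i)) ^ 2 +
        (2 * c) * ((∑ i, (tz (w (x i)) : ℝ)) ^ 2 * (∑ i, w (x i))) -
        (2 * a * (κ - c ^ 2)) * (∑ i, (tz (w (x i)) : ℝ)) +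
        (2 * a) * ((∑ i, (tz (w (x i)) : ℝ)) * (∑ i, w (x i)) ^ 2) -
        (4 * a * c) * ((∑ i, (tz (w (x i)) : ℝ)) * (∑ i, w (x i))) +
        a ^ 2 * (κ - c ^ 2) - a ^ 2 * (∑ i, w (x i)) ^ 2 + (2 * a ^ 2 * c) * (∑ i, w (x i))) :=
      E_congr fun x => by ring
    rw [this]
    simp only [E_add, E_sub, E_mul_left, E_const, m10, m01, m20, m11, m02, m21, m12, m22]
    have ha' : (a : ℝ) ^ 2 = 3 * n := by exact_mod_cast ha
    have hn' : (14 * 34 ^ 2 : ℝ) ≤ n := by exact_mod_cast hn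
    have e1 : c ^ 2 = 3 * n * ρ ^ 2 / 4 := by rw [hc, ← ha']; ring
    have e2 : 4 * a * c = - 6 * n * ρ := by
      rw [hc]; linear_combination (-2 * ρ) * ha'
    rw [e1, e2, ha', hκ]
    have r2 : 14 ≤ n * ρ ^ 2 := by
      have : 1 / 34 ^ 2 ≤ ρ ^ 2 := by
        rw [← one_div_pow]; exact pow_le_pow_left₀ (by norm_num) hρ 2
      nlinarith
    have n0 : (0 : ℝ) ≤ n := Nat.cast_nonneg _
    nlinarith [mul_le_mul_of_nonneg_left r2 n0, mul_le_mul_of_nonneg_left hq1 n0,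
      mul_le_mul_of_nonneg_left hq1 (by positivity : 0 ≤ (n : ℝ) ^ 2 * ρ ^ 2),
      mul_nonneg n0 (sq_nonneg ρ)]

theorem gadget : ∃ η t0 : ℝ, 0 < η ∧ ∀ (X : Type) [Fintype X] [Nonempty X] (w : X → ℝ),
    Shape w t0 → ∃ (I : Type) (_ : Fintype I) (_ : DecidableEq I) (r k : ℕ) (P : (I → ℝ) → ℝ)
      (c : ℝ), 0 < Fintype.card I ∧ r + k = Fintype.card I ∧ P ∈ J I ℝ r ∧
      (∀ y, P y = 0 ∨ P y = 1) ∧
      η * Fintype.card I ≤ E (fun x : I → X => P (fun i => w (x i)) *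
        (k - (∑ i, w (x i) - c) ^ 2)) := by
  obtain ⟨n, a, j, ha, hn, hR⟩ : ∃ n a j : ℕ, a ^ 2 = 3 * n ∧ 14 * 34 ^ 2 ≤ n ∧
      (n + a) ^ 2 ≤ 2 ^ j * 1 := ⟨16428, 222, 29, by norm_num, by norm_num, by norm_num⟩
  obtain ⟨k, hk⟩ : ∃ k, n - 2 = k + 1 := ⟨n - 3, by omega⟩
  obtain ⟨t0, b, m, hb, H⟩ := cells (1 / ((j + 1) * (k + 1 : ℕ))) (by positivity)
  have hN : (0 : ℝ) < ((n + j * ((k + 1) * m) : ℕ) : ℝ) := by
    have : 0 < n + j * ((k + 1) * m) := by omega
    exact_mod_cast this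
  refine ⟨(b ^ (k + 1) / 2) ^ j / ((n + j * ((k + 1) * m) : ℕ) : ℝ), max 1 t0, by positivity, ?_⟩
  intro X _ _ w hs
  have hs' : Shape w t0 := ⟨hs.1, hs.2.1, fun t ht => hs.2.2 t (ht.trans (le_max_right _ _))⟩
  have h0 := stage0 (le_max_left _ _) hs n a _ ha hn hR
  rw [hk] at h0
  have h1 := St.iter zero_le_one (by positivity) ((H X w hs').pow hb.le k) j 1 h0
  obtain ⟨I, _, _, r, G, c, hI, hIN, hr, hJ, hG, hE⟩ := h1
  refine ⟨I, inferInstance, inferInstance, r, k + 1, fun y => (G y : ℝ), c, hI, hr, hJ, ?_, ?_⟩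
  · intro y
    have := hG y
    have h01 : G y = 0 ∨ G y = 1 := by omega
    rcases h01 with h | h <;> simp [h]
  · have e1 : (b ^ (k + 1) / 2) ^ j / ((n + j * ((k + 1) * m) : ℕ) : ℝ) * Fintype.card I ≤
        (b ^ (k + 1) / 2) ^ j * 1 := by
      rw [div_mul_eq_mul_div, mul_div_assoc]
      refine mul_le_mul_of_nonneg_left ?_ (by positivity)
      rw [div_le_one hN]
      exact_mod_cast hIN
    refine e1.trans (hE.trans (E_mono fun x => ?_))
    refine mul_le_mul_of_nonneg_left ?_ (Nat.cast_nonneg _)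
    have e2 : (j : ℝ) * (((k + 1 : ℕ) : ℝ) * (1 / ((j + 1) * (k + 1 : ℕ)))) ≤ 1 := by
      have : (j : ℝ) * (((k + 1 : ℕ) : ℝ) * (1 / ((j + 1) * (k + 1 : ℕ)))) = j / (j + 1) := by
        field_simp
      rw [this, div_le_one (by positivity)]; linarith
    have e3 : (n : ℝ) = k + 3 := by
      have : n = k + 3 := by omega
      exact_mod_cast this
    push_cast at e2 ⊢
    linarith

/-- there is a calibrated observable of cost `D` and variance at least `v * D` -/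
def Rate (v : ℝ) : Prop :=
  ∃ (K : Type) (_ : Fintype K) (_ : DecidableEq K) (D : ℕ) (W : (K → Bool) → ℝ),
    0 < D ∧ Obs K D W ∧ v * D ≤ E (fun x => W x ^ 2)

lemma rate_one : Rate 1 := by
  refine ⟨Unit, inferInstance, inferInstance, 1, L, one_pos, ⟨fun φ => ?_, fun φ => ?_⟩, ?_⟩
  · simpa using J_top (fun x : Unit → Bool => φ (L x))
  · simp [E_zero]
  · have : ∀ x : Unit → Bool, L x ^ 2 = 1 := by
      intro x; simp only [L, univ_unique, sum_singleton, sg]; split_ifs <;> simp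
    simp [this, E_const]

lemma rate_shape {v : ℝ} (hv : 0 < v) (h : Rate v) (t0 : ℝ) :
    ∃ (K : Type) (_ : Fintype K) (_ : DecidableEq K) (D : ℕ) (W : (K → Bool) → ℝ) (σ : ℝ),
    0 < D ∧ Obs K D W ∧ 0 < σ ∧ v * D ≤ σ ^ 2 ∧ Shape (fun x => W x / σ) t0 := by
  obtain ⟨K, _, _, D, W, hD, hW, hE⟩ := h
  have hpos : 0 < E (fun x => W x ^ 2) := lt_of_lt_of_le (by positivity) hE
  obtain ⟨K', _, _, r, W', hr, hW', -, hs⟩ := shape_step hW hpos t0
  refine ⟨K', inferInstance, inferInstance, r * D, W', _, by positivity, hW',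
    Real.sqrt_pos.2 (by positivity), ?_, hs⟩
  rw [Real.sq_sqrt (by positivity)]
  push_cast
  nlinarith [mul_le_mul_of_nonneg_left hE (Nat.cast_nonneg r : (0 : ℝ) ≤ r)]

theorem rate_step : ∃ η : ℝ, 0 < η ∧ ∀ v, 0 < v → Rate v → Rate (v * (1 + η)) := by
  classical
  obtain ⟨η, t0, hη, H⟩ := gadget
  refine ⟨η, hη, fun v hv h => ?_⟩
  obtain ⟨K, _, _, D, W, σ, hD, hW, hσ, hvσ, hs⟩ := rate_shape hv h t0
  obtain ⟨I, _, _, r, k, P, c, hI, hr, hJ, hP, hE⟩ := H _ _ hs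
  set w : (K → Bool) → ℝ := fun x => W x / σ with hw
  have hWw : ∀ x, W x = σ * w x := fun x => by simp only [hw]; field_simp
  have hw0 : E w = 0 := by
    have := hW.mean
    have e : E W = E (fun x => σ * w x) := E_congr hWw
    rw [e, E_mul_left] at this
    exact (mul_eq_zero.1 this).resolve_left hσ.ne'
  let Φ : (I ⊕ Fin k → ℝ) → ℝ := fun y =>
    P (fun i => y (Sum.inl i) / σ) * (σ * c + ∑ j, y (Sum.inr j)) +
      (1 - P (fun i => y (Sum.inl i) / σ)) * ∑ i, y (Sum.inl i)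
  have hΦ : ∀ ψ : ℝ → ℝ, (fun y => ψ (Φ y)) ∈ J (I ⊕ Fin k) ℝ (Fintype.card I) := by
    intro ψ
    have : (fun y => ψ (Φ y)) = fun y : I ⊕ Fin k → ℝ =>
        P (fun i => y (Sum.inl i) / σ) * ψ (σ * c + ∑ j, y (Sum.inr j)) +
        (1 - P (fun i => y (Sum.inl i) / σ)) * ψ (∑ i, y (Sum.inl i)) := by
      ext y
      simp only [Φ]
      rcases hP (fun i => y (Sum.inl i) / σ) with h | h <;> simp [h]
    rw [this]
    refine J_add ?_ (J_inl (J_top (fun y : I → ℝ => (1 - P (fun i => y i / σ)) * ψ (∑ i, y i))))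
    have h1 := J_pull (I' := I ⊕ Fin k) Sum.inl (fun _ (s : ℝ) => s / σ) hJ
    have h2 := J_inr (I := I) (J_top (fun y : Fin k → ℝ => ψ (σ * c + ∑ j, y j)))
    have := J_mul h1 h2
    rwa [Fintype.card_fin, hr] at this
  let g : ((I ⊕ Fin k) × K → Bool) → ℝ := fun x => Φ (fun i => W (fun j => x (i, j)))
  obtain ⟨W', hW', hsc⟩ := calibrate (D := Fintype.card I * D) (g := g)
    (fun ψ => J_subst (fun _ => W) (fun _ => hW.1) (hΦ ψ))
  refine ⟨(I ⊕ Fin k) × K, inferInstance, inferInstance, Fintype.card I * D, W', by positivity,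
    hW', le_trans ?_ hsc⟩
  have c1 := family_calib (fun _ : I ⊕ Fin k => W) (fun _ => hW) Φ
  simp only [sub_mul, E_sub] at c1
  have c2 : 2 * E (fun x => L x * g x) - E (fun x => g x ^ 2) =
      E (fun x : I ⊕ Fin k → K → Bool => 2 * ((∑ i, W (x i)) * Φ (fun i => W (x i))) -
        Φ (fun i => W (x i)) ^ 2) := by
    rw [← E_curry, E_sub, E_mul_left]
    simp only [g]
    linarith
  rw [c2, E_sumElim]
  have b1 : E (fun y : Fin k → K → Bool => ∑ j, w (y j)) = 0 := E_sum_zero (fun _ => w) fun _ => hw0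
  have b2 : E (fun y : Fin k → K → Bool => (∑ j, w (y j)) ^ 2) = k := by
    rw [E_sum_sq (fun _ => w) fun _ => hw0]
    simp [hs.2.1]
  have a2 : E (fun y : I → K → Bool => (∑ j, w (y j)) ^ 2) = Fintype.card I := by
    rw [E_sum_sq (fun _ => w) fun _ => hw0]
    simp [hs.2.1]
  have key : ∀ x : I → K → Bool, E (fun y : Fin k → K → Bool =>
      2 * ((∑ i, W (Sum.elim x y i)) * Φ (fun i => W (Sum.elim x y i))) -
        Φ (fun i => W (Sum.elim x y i)) ^ 2) =
      σ ^ 2 * ((∑ i, w (x i)) ^ 2 + P (fun i => w (x i)) * (k - (∑ i, w (x i) - c) ^ 2)) := by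
    intro x
    have e : E (fun y : Fin k → K → Bool =>
      2 * ((∑ i, W (Sum.elim x y i)) * Φ (fun i => W (Sum.elim x y i))) -
        Φ (fun i => W (Sum.elim x y i)) ^ 2) = E (fun y : Fin k → K → Bool =>
        σ ^ 2 * ((∑ i, w (x i)) ^ 2 - P (fun i => w (x i)) * (∑ i, w (x i) - c) ^ 2) +
        (σ ^ 2 * 2 * ∑ i, w (x i)) * (∑ j, w (y j)) +
        (σ ^ 2 * P (fun i => w (x i))) * (∑ j, w (y j)) ^ 2) := by
      refine E_congr fun y => ?_
      simp only [Φ, Fintype.sum_sum_type, Sum.elim_inl, Sum.elim_inr]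
      have f1 : (fun i => W (x i) / σ) = fun i => w (x i) := rfl
      rw [f1]
      simp only [hWw, ← mul_sum]
      rcases hP (fun i => w (x i)) with h | h <;> rw [h] <;> ring
    rw [e, E_add, E_add, E_const, E_mul_left, E_mul_left, b1, b2]
    ring
  simp only [key]
  rw [E_mul_left, E_add, a2]
  push_cast
  have hI' : (0 : ℝ) ≤ Fintype.card I := Nat.cast_nonneg _
  calc v * (1 + η) * (Fintype.card I * D) = (v * D) * (Fintype.card I + η * Fintype.card I) := by ring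
    _ ≤ σ ^ 2 * (Fintype.card I + η * Fintype.card I) := by gcongr
    _ ≤ _ := by gcongr

theorem rate_all (v : ℝ) : ∃ v', v ≤ v' ∧ 0 < v' ∧ Rate v' := by
  obtain ⟨η, hη, H⟩ := rate_step
  have : ∀ j : ℕ, Rate ((1 + η) ^ j) := by
    intro j
    induction j with
    | zero => simpa using rate_one
    | succ j ih => rw [pow_succ]; exact H _ (by positivity) ih
  obtain ⟨j, hj⟩ := pow_unbounded_of_one_lt v (by linarith : 1 < 1 + η)
  exact ⟨_, hj.le, by positivity, this j⟩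

theorem exists_boolean (C : ℝ) : ∃ (n D : ℕ) (f : (Fin n → Bool) → ℝ), 0 < D ∧
    (∀ x, f x = 1 ∨ f x = -1) ∧ f ∈ J (Fin n) Bool D ∧ C * √D < E (fun x => L x * f x) := by
  obtain ⟨v, hv, hv0, h⟩ := rate_all ((34 * (|C| + 1)) ^ 2)
  obtain ⟨K, _, _, D, W, σ, hD, hW, hσ, hvσ, hs⟩ := rate_shape hv0 h 1
  have hρ := abs_mean le_rfl hs
  let s : ℝ → ℝ := fun y => if 0 ≤ y then 1 else -1
  let e := Fintype.equivFin K
  refine ⟨Fintype.card K, D, fun x => s (W (fun j => x (e j))), hD, ?_,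
    J_pull e (fun _ b => b) (hW.1 s), ?_⟩
  · intro x; simp only [s]; split_ifs <;> simp
  · have e1 : E (fun x : Fin (Fintype.card K) → Bool => L x * s (W (fun j => x (e j)))) =
        E (fun x : K → Bool => L x * s (W x)) := by
      rw [← E_equiv (Equiv.arrowCongr e.symm (Equiv.refl Bool))
        (fun x : K → Bool => L x * s (W x))]
      refine E_congr fun x => ?_
      have : L x = L ((Equiv.arrowCongr e.symm (Equiv.refl Bool)) x) := by
        simp only [L, Equiv.arrowCongr_apply, Equiv.symm_symm, Equiv.coe_refl, Function.comp, id]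
        exact (Equiv.sum_comp e (fun i => sg (x i))).symm
      rw [this]
      rfl
    have e2 := hW.2 s
    simp only [sub_mul, E_sub] at e2
    have e3 : E (fun x => W x * s (W x)) = σ * E (fun x => |W x / σ|) := by
      rw [← E_mul_left]
      refine E_congr fun x => ?_
      rw [abs_div, abs_of_pos hσ, mul_div_cancel₀ _ hσ.ne']
      simp only [s]
      split_ifs with hx
      · rw [abs_of_nonneg hx, mul_one]
      · rw [abs_of_neg (not_le.1 hx)]; ring
    rw [e1]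
    have hD' : (0 : ℝ) < √D := Real.sqrt_pos.2 (by exact_mod_cast hD)
    have e4 : 34 * (|C| + 1) * √D ≤ σ := by
      refine (pow_le_pow_iff_left₀ (by positivity) hσ.le two_ne_zero).1 ?_
      rw [mul_pow, Real.sq_sqrt (Nat.cast_nonneg _)]
      exact (mul_le_mul_of_nonneg_right hv (Nat.cast_nonneg _)).trans hvσ
    have e5 := mul_le_mul_of_nonneg_left hρ hσ.le
    have e6 := mul_le_mul_of_nonneg_right (le_abs_self C) hD'.le
    nlinarith

end Vale.Agent.P047
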