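import Vale.Agent.P047.Basic

/-! Moments of independent sums. -/

namespace Vale.Agent.P047

open Finset

variable {X I : Type} [Fintype X] [Nonempty X] [Fintype I] [DecidableEq I]

omit [Fintype X] [Nonempty X] [Fintype I] in
lemma prod_update_notMem (α : I → X → ℝ) {s : Finset I} {i : I} (hi : i ∉ s) (x : I → X) (a : X) :
    ∏ j ∈ s, α j (Function.update x i a j) = ∏ j ∈ s, α j (x j) :=
  prod_congr rfl fun j hj => by
    rw [Function.update_of_ne (by rintro rfl; exact hi hj)]

omit [Fintype X] [Nonempty X] [Fintype I] in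
lemma sum_update_notMem (α : I → X → ℝ) {s : Finset I} {i : I} (hi : i ∉ s) (x : I → X) (a : X) :
    ∑ j ∈ s, α j (Function.update x i a j) = ∑ j ∈ s, α j (x j) :=
  sum_congr rfl fun j hj => by
    rw [Function.update_of_ne (by rintro rfl; exact hi hj)]

lemma E_pi_prod (α : I → X → ℝ) (s : Finset I) :
    E (fun x : I → X => ∏ i ∈ s, α i (x i)) = ∏ i ∈ s, E (α i) := by
  induction s using Finset.induction_on with
  | empty => simp [E_const]
  | insert i s hi ih =>
    simp only [prod_insert hi]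
    rw [E_indep i (α i) _ (prod_update_notMem α hi), ih]

lemma E_weighted (α β : I → X → ℝ) (b e : I → ℝ) (h0 : ∀ i, E (α i) = b i)
    (h1 : ∀ i, E (fun a => α i a * β i a) = 0)
    (h2 : ∀ i, E (fun a => α i a * β i a ^ 2) = e i * b i) (s : Finset I) :
    E (fun x : I → X => (∏ i ∈ s, α i (x i)) * ∑ i ∈ s, β i (x i)) = 0 ∧
    E (fun x : I → X => (∏ i ∈ s, α i (x i)) * (∑ i ∈ s, β i (x i)) ^ 2) =
      (∑ i ∈ s, e i) * ∏ i ∈ s, b i := by
  induction s using Finset.induction_on with
  | empty => simp [E_const]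
  | insert i s hi ih =>
    obtain ⟨ih1, ih2⟩ := ih
    have ih0 : E (fun x : I → X => ∏ i ∈ s, α i (x i)) = ∏ i ∈ s, b i := by
      rw [E_pi_prod]; simp [h0]
    have A0 := fun φ : X → ℝ => E_indep i φ (fun x : I → X => ∏ i ∈ s, α i (x i))
      (prod_update_notMem α hi)
    have A1 := fun φ : X → ℝ => E_indep i φ
      (fun x : I → X => (∏ i ∈ s, α i (x i)) * ∑ i ∈ s, β i (x i))
      (fun x a => by rw [prod_update_notMem α hi, sum_update_notMem β hi])
    have A2 := fun φ : X → ℝ => E_indep i φ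
      (fun x : I → X => (∏ i ∈ s, α i (x i)) * (∑ i ∈ s, β i (x i)) ^ 2)
      (fun x a => by rw [prod_update_notMem α hi, sum_update_notMem β hi])
    simp only [prod_insert hi, sum_insert hi]
    constructor
    · have : E (fun x : I → X => (α i (x i) * ∏ i ∈ s, α i (x i)) *
          (β i (x i) + ∑ i ∈ s, β i (x i))) =
          E (fun x : I → X => (α i (x i) * β i (x i)) * (∏ i ∈ s, α i (x i)) +
            α i (x i) * ((∏ i ∈ s, α i (x i)) * ∑ i ∈ s, β i (x i))) :=
        E_congr fun x => by ring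
      rw [this, E_add, A0 (fun a => α i a * β i a), A1 (α i), h1, ih1]; simp
    · have : E (fun x : I → X => (α i (x i) * ∏ i ∈ s, α i (x i)) *
          (β i (x i) + ∑ i ∈ s, β i (x i)) ^ 2) =
          E (fun x : I → X => (α i (x i) * β i (x i) ^ 2) * (∏ i ∈ s, α i (x i)) +
            (2 * ((α i (x i) * β i (x i)) * ((∏ i ∈ s, α i (x i)) * ∑ i ∈ s, β i (x i))) +
            α i (x i) * ((∏ i ∈ s, α i (x i)) * (∑ i ∈ s, β i (x i)) ^ 2))) :=
        E_congr fun x => by ring
      rw [this, E_add, E_add, E_mul_left, A0 (fun a => α i a * β i a ^ 2),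
        A1 (fun a => α i a * β i a), A2 (α i), h1, h2, h0, ih0, ih2]
      ring

lemma E_sum_sq (β : I → X → ℝ) (h1 : ∀ i, E (β i) = 0) :
    E (fun x : I → X => (∑ i, β i (x i)) ^ 2) = ∑ i, E (fun a => β i a ^ 2) := by
  have := (E_weighted (fun _ _ => 1) β (fun _ => 1) (fun i => E (fun a => β i a ^ 2))
    (fun _ => E_const 1) (fun i => by simpa using h1 i) (fun i => by simp) univ).2
  simpa using this

lemma E_sum_zero (β : I → X → ℝ) (h1 : ∀ i, E (β i) = 0) :
    E (fun x : I → X => ∑ i, β i (x i)) = 0 := by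
  have := (E_weighted (fun _ _ => 1) β (fun _ => 1) (fun i => E (fun a => β i a ^ 2))
    (fun _ => E_const 1) (fun i => by simpa using h1 i) (fun i => by simp) univ).1
  simpa using this

/-- joint moments of two sums -/
lemma E_two_sums (t w : X → ℝ) (q ρ u v : ℝ) (ht : E t = 0) (hw : E w = 0)
    (htt : E (fun a => t a ^ 2) = q) (htw : E (fun a => t a * w a) = ρ)
    (hww : E (fun a => w a ^ 2) = v) (httw : E (fun a => t a ^ 2 * w a) = 0)
    (htww : E (fun a => t a * w a ^ 2) = 0) (httww : E (fun a => t a ^ 2 * w a ^ 2) = u)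
    (s : Finset I) :
    E (fun x : I → X => ∑ i ∈ s, t (x i)) = 0 ∧
    E (fun x : I → X => ∑ i ∈ s, w (x i)) = 0 ∧
    E (fun x : I → X => (∑ i ∈ s, t (x i)) ^ 2) = s.card * q ∧
    E (fun x : I → X => (∑ i ∈ s, t (x i)) * (∑ i ∈ s, w (x i))) = s.card * ρ ∧
    E (fun x : I → X => (∑ i ∈ s, w (x i)) ^ 2) = s.card * v ∧
    E (fun x : I → X => (∑ i ∈ s, t (x i)) ^ 2 * (∑ i ∈ s, w (x i))) = 0 ∧
    E (fun x : I → X => (∑ i ∈ s, t (x i)) * (∑ i ∈ s, w (x i)) ^ 2) = 0 ∧
    E (fun x : I → X => (∑ i ∈ s, t (x i)) ^ 2 * (∑ i ∈ s, w (x i)) ^ 2) =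
      s.card * u + s.card * (s.card - 1) * (q * v + 2 * ρ ^ 2) := by
  induction s using Finset.induction_on with
  | empty => simp [E_const]
  | insert i s hi ih =>
    obtain ⟨m10, m01, m20, m11, m02, m21, m12, m22⟩ := ih
    have key : ∀ (φ : X → ℝ) (p r : ℕ), E (fun x : I → X => φ (x i) *
        ((∑ j ∈ s, t (x j)) ^ p * (∑ j ∈ s, w (x j)) ^ r)) =
        E φ * E (fun x : I → X => (∑ j ∈ s, t (x j)) ^ p * (∑ j ∈ s, w (x j)) ^ r) := by
      intro φ p r
      refine E_indep i φ _ fun x a => ?_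
      rw [sum_update_notMem (fun _ => t) hi, sum_update_notMem (fun _ => w) hi]
    set T : (I → X) → ℝ := fun x => ∑ j ∈ s, t (x j) with hT
    set S : (I → X) → ℝ := fun x => ∑ j ∈ s, w (x j) with hS
    have n00 : E (fun x : I → X => T x ^ 0 * S x ^ 0) = 1 := by simp [E_const]
    have n10 : E (fun x : I → X => T x ^ 1 * S x ^ 0) = 0 := by simpa using m10
    have n01 : E (fun x : I → X => T x ^ 0 * S x ^ 1) = 0 := by simpa using m01
    have n20 : E (fun x : I → X => T x ^ 2 * S x ^ 0) = s.card * q := by simpa using m20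
    have n11 : E (fun x : I → X => T x ^ 1 * S x ^ 1) = s.card * ρ := by simpa using m11
    have n02 : E (fun x : I → X => T x ^ 0 * S x ^ 2) = s.card * v := by simpa using m02
    have n21 : E (fun x : I → X => T x ^ 2 * S x ^ 1) = 0 := by simpa using m21
    have n12 : E (fun x : I → X => T x ^ 1 * S x ^ 2) = 0 := by simpa using m12
    have n22 : E (fun x : I → X => T x ^ 2 * S x ^ 2) =
      s.card * u + s.card * (s.card - 1) * (q * v + 2 * ρ ^ 2) := m22
    have h1 : E (fun _ : X => (1 : ℝ)) = 1 := E_const 1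
    -- general expansion
    have gen : ∀ c00 c10 c01 c20 c11 c02 c21 c12 c22 : X → ℝ,
        E (fun x : I → X => c00 (x i) * (T x ^ 0 * S x ^ 0) + c10 (x i) * (T x ^ 1 * S x ^ 0) +
          c01 (x i) * (T x ^ 0 * S x ^ 1) + c20 (x i) * (T x ^ 2 * S x ^ 0) +
          c11 (x i) * (T x ^ 1 * S x ^ 1) + c02 (x i) * (T x ^ 0 * S x ^ 2) +
          c21 (x i) * (T x ^ 2 * S x ^ 1) + c12 (x i) * (T x ^ 1 * S x ^ 2) +
          c22 (x i) * (T x ^ 2 * S x ^ 2)) =
        E c00 + E c20 * (s.card * q) + E c11 * (s.card * ρ) + E c02 * (s.card * v) +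
          E c22 * (s.card * u + s.card * (s.card - 1) * (q * v + 2 * ρ ^ 2)) := by
      intro c00 c10 c01 c20 c11 c02 c21 c12 c22
      simp only [E_add]
      rw [key c00 0 0, key c10 1 0, key c01 0 1, key c20 2 0, key c11 1 1, key c02 0 2,
        key c21 2 1, key c12 1 2, key c22 2 2, n00, n10, n01, n20, n11, n02, n21, n12, n22]
      ring
    have z : E (fun _ : X => (0 : ℝ)) = 0 := E_zero
    simp only [sum_insert hi, card_insert_of_notMem hi, Nat.cast_add, Nat.cast_one]
    refine ⟨?_, ?_, ?_, ?_, ?_, ?_, ?_, ?_⟩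
    · have := gen t (fun _ => 1) (fun _ => 0) (fun _ => 0) (fun _ => 0) (fun _ => 0) (fun _ => 0)
        (fun _ => 0) (fun _ => 0)
      rw [z, ht] at this
      refine (E_congr fun x => ?_).trans (this.trans (by ring))
      simp only [hT, hS]; ring
    · have := gen w (fun _ => 0) (fun _ => 1) (fun _ => 0) (fun _ => 0) (fun _ => 0) (fun _ => 0)
        (fun _ => 0) (fun _ => 0)
      rw [z, hw] at this
      refine (E_congr fun x => ?_).trans (this.trans (by ring))
      simp only [hT, hS]; ring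
    · have := gen (fun a => t a ^ 2) (fun a => 2 * t a) (fun _ => 0) (fun _ => 1) (fun _ => 0)
        (fun _ => 0) (fun _ => 0) (fun _ => 0) (fun _ => 0)
      rw [z, htt, h1] at this
      refine (E_congr fun x => ?_).trans (this.trans (by ring))
      simp only [hT, hS]; ring
    · have := gen (fun a => t a * w a) w t (fun _ => 0) (fun _ => 1)
        (fun _ => 0) (fun _ => 0) (fun _ => 0) (fun _ => 0)
      rw [z, htw, h1] at this
      refine (E_congr fun x => ?_).trans (this.trans (by ring))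
      simp only [hT, hS]; ring
    · have := gen (fun a => w a ^ 2) (fun _ => 0) (fun a => 2 * w a) (fun _ => 0) (fun _ => 0)
        (fun _ => 1) (fun _ => 0) (fun _ => 0) (fun _ => 0)
      rw [z, hww, h1] at this
      refine (E_congr fun x => ?_).trans (this.trans (by ring))
      simp only [hT, hS]; ring
    · have := gen (fun a => t a ^ 2 * w a) (fun a => 2 * (t a * w a)) (fun a => t a ^ 2) w
        (fun a => 2 * t a) (fun _ => 0) (fun _ => 1) (fun _ => 0) (fun _ => 0)
      rw [z, httw, hw, E_mul_left, ht] at this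
      refine (E_congr fun x => ?_).trans (this.trans (by ring))
      simp only [hT, hS]; ring
    · have := gen (fun a => t a * w a ^ 2) (fun a => w a ^ 2) (fun a => 2 * (t a * w a))
        (fun _ => 0) (fun a => 2 * w a) t (fun _ => 0) (fun _ => 1) (fun _ => 0)
      rw [z, htww, ht, E_mul_left, hw] at this
      refine (E_congr fun x => ?_).trans (this.trans (by ring))
      simp only [hT, hS]; ring
    · have := gen (fun a => t a ^ 2 * w a ^ 2) (fun a => 2 * (t a * w a ^ 2))
        (fun a => 2 * (t a ^ 2 * w a)) (fun a => w a ^ 2) (fun a => 4 * (t a * w a))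
        (fun a => t a ^ 2) (fun a => 2 * w a) (fun a => 2 * t a) (fun _ => 1)
      rw [httww, hww, E_mul_left, htw, htt, h1] at this
      refine (E_congr fun x => ?_).trans (this.trans (by ring))
      simp only [hT, hS]; ring

end Vale.Agent.P047
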