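import Vale.Agent.P047.Fourier

/-! Composition of balanced Boolean functions: a polynomial gap over the square root. -/

namespace Vale.Agent.P047

open Finset

/-- a balanced Boolean function of junta degree at most `D` with correlation `A` with `L` -/
def Good (D : ℕ) (A : ℝ) : Prop :=
  ∃ (K : Type) (_ : Fintype K) (_ : DecidableEq K) (f : (K → Bool) → ℝ),
    (∀ x, f x = 1 ∨ f x = -1) ∧ f ∈ J K Bool D ∧ E f = 0 ∧ E (fun x => L x * f x) = A

lemma E_bool (φ : Bool → ℝ) : E φ = (φ true + φ false) / 2 := by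
  simp [E]

lemma E_unit (φ : (Unit → Bool) → ℝ) : E φ = (φ (fun _ => true) + φ (fun _ => false)) / 2 := by
  rw [← E_equiv (Equiv.funUnique Unit Bool).symm φ, E_bool]
  rfl

lemma good_one : Good 1 1 := by
  refine ⟨Unit, inferInstance, inferInstance, fun x => sg (x ()), ?_, J_coord () sg, ?_, ?_⟩
  · intro x; cases h : x () <;> simp [sg, h]
  · rw [E_unit]; simp [sg]
  · rw [E_unit]; simp [sg, L]

lemma pm_affine {X : Type} {g : X → ℝ} (hg : ∀ x, g x = 1 ∨ g x = -1) (φ : ℝ → ℝ) (x : X) :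
    φ (g x) = (φ 1 + φ (-1)) / 2 + (φ 1 - φ (-1)) / 2 * g x := by
  rcases hg x with h | h <;> rw [h] <;> ring

lemma sg_decide {y : ℝ} (h : y = 1 ∨ y = -1) : sg (decide (y = 1)) = y := by
  rcases h with h | h
  · subst h; simp [sg]
  · subst h
    have : ¬ ((-1 : ℝ) = 1) := by norm_num
    simp [sg, this]

lemma push_unif {X I : Type} [Fintype X] [Nonempty X] [Fintype I] [DecidableEq I] (b : X → Bool)
    (hb : ∀ φ : Bool → ℝ, E (fun a => φ (b a)) = E φ) (F : (I → Bool) → ℝ) :
    E (fun x : I → X => F (fun i => b (x i))) = E F := by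
  have key : ∀ y : I → Bool, F y = ∑ z : I → Bool, F z * ∏ i, (if y i = z i then (1 : ℝ) else 0) := by
    intro y
    rw [sum_eq_single y]
    · simp
    · intro z _ hz
      obtain ⟨i, hi⟩ := Function.ne_iff.1 hz
      rw [prod_eq_zero (mem_univ i) (if_neg (Ne.symm hi)), mul_zero]
    · intro h; exact absurd (mem_univ _) h
  have h1 : E (fun x : I → X => F (fun i => b (x i))) =
      ∑ z : I → Bool, F z * ∏ i, E (fun a : X => if b a = z i then (1 : ℝ) else 0) := by
    rw [E_congr fun x : I → X => key (fun i => b (x i)), E_sum]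
    refine sum_congr rfl fun z _ => ?_
    rw [E_mul_left, E_pi_prod (fun i a => if b a = z i then (1 : ℝ) else 0)]
  have h2 : E F = ∑ z : I → Bool, F z * ∏ i, E (fun a : Bool => if a = z i then (1 : ℝ) else 0) := by
    rw [E_congr key, E_sum]
    refine sum_congr rfl fun z _ => ?_
    rw [E_mul_left, E_pi_prod (fun i a => if a = z i then (1 : ℝ) else 0)]
  rw [h1, h2]
  refine sum_congr rfl fun z _ => ?_
  congr 1
  exact prod_congr rfl fun i _ => hb (fun a => if a = z i then (1 : ℝ) else 0)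

lemma good_mul {D D' : ℕ} {A A' : ℝ} (hA' : A' ≠ 0) (h : Good D A) (h' : Good D' A') :
    Good (D * D') (A * A') := by
  obtain ⟨I, _, _, f, f1, f2, f3, f4⟩ := h
  obtain ⟨K, _, _, g, g1, g2, g3, g4⟩ := h'
  have gJ : ∀ φ : ℝ → ℝ, (fun x => φ (g x)) ∈ J K Bool D' := by
    intro φ
    rw [show (fun x => φ (g x)) = fun x => (φ 1 + φ (-1)) / 2 + (φ 1 - φ (-1)) / 2 * g x from
      funext (pm_affine g1 φ)]
    exact J_add (J_const _ _) (J_smul _ g2)
  have hb : ∀ φ : Bool → ℝ, E (fun a => φ (decide (g a = 1))) = E φ := by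
    intro φ
    rw [E_congr (pm_affine g1 (fun y => φ (decide (y = 1)))), E_add, E_const, E_mul_left, g3,
      E_bool]
    have : ¬ ((-1 : ℝ) = 1) := by norm_num
    simp [this]
  have hObs : Obs K D' (fun x => A' * g x) := by
    refine ⟨fun φ => gJ (fun y => φ (A' * y)), fun φ => ?_⟩
    have e : ∀ x, (L x - A' * g x) * φ (A' * g x) =
        (φ (A' * 1) + φ (A' * -1)) / 2 * L x + (φ (A' * 1) - φ (A' * -1)) / 2 * (L x * g x) -
          A' * ((φ (A' * 1) + φ (A' * -1)) / 2) * g x - A' * ((φ (A' * 1) - φ (A' * -1)) / 2) := by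
      intro x
      rcases g1 x with h | h <;> rw [h] <;> ring
    rw [E_congr e, E_sub, E_sub, E_add, E_mul_left, E_mul_left, E_mul_left, E_const, E_L, g4]
    have : E (fun x => g x) = 0 := g3
    rw [this]; ring
  refine ⟨I × K, inferInstance, inferInstance,
    fun x => f (fun i => decide (g (fun j => x (i, j)) = 1)), fun x => f1 _, ?_, ?_, ?_⟩
  · exact J_subst (fun _ : I => g) (fun _ => gJ)
      (J_pull id (fun _ (y : ℝ) => decide (y = 1)) f2)
  · rw [E_curry (fun x : I → K → Bool => f (fun i => decide (g (x i) = 1))),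
      push_unif (fun a => decide (g a = 1)) hb f, f3]
  · have c := family_calib (fun _ : I => fun x => A' * g x) (fun _ => hObs)
      (fun y => f (fun i => decide (y i / A' = 1)))
    simp only [mul_div_cancel_left₀ _ hA', sub_mul, E_sub] at c
    rw [sub_eq_zero] at c
    rw [c]
    have e : ∀ x : I × K → Bool, (∑ i, A' * g (fun j => x (i, j))) *
        f (fun i => decide (g (fun j => x (i, j)) = 1)) =
        A' * (L (fun i => decide (g (fun j => x (i, j)) = 1)) *
          f (fun i => decide (g (fun j => x (i, j)) = 1))) := by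
      intro x
      rw [← mul_sum, mul_assoc]
      congr 2
      exact sum_congr rfl fun i _ => (sg_decide (g1 _)).symm
    rw [E_congr e, E_mul_left, E_curry (fun x : I → K → Bool =>
      L (fun i => decide (g (x i) = 1)) * f (fun i => decide (g (x i) = 1))),
      push_unif (fun a => decide (g a = 1)) hb (fun y => L y * f y), f4, mul_comm]

lemma good_pow {D : ℕ} {A : ℝ} (hA : A ≠ 0) (h : Good D A) (k : ℕ) : Good (D ^ k) (A ^ k) := by
  induction k with
  | zero => simpa using good_one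
  | succ k ih => rw [pow_succ, pow_succ]; exact good_mul hA ih h

lemma good_base : ∃ (D : ℕ) (A : ℝ), 2 ≤ D ∧ 2 * √D ≤ A ∧ Good D A := by
  obtain ⟨n, D, f, hD, f1, f2, f4⟩ := exists_boolean 4
  let g : (Fin n ⊕ Unit → Bool) → ℝ := fun x =>
    (1 + sg (x (Sum.inr ()))) / 2 * f (fun i => x (Sum.inl i)) -
      (1 - sg (x (Sum.inr ()))) / 2 * f (fun i => !x (Sum.inl i))
  have n1 : E (fun x : Fin n → Bool => f (fun i => !x i)) = E f := E_equiv (negE (Fin n)) f
  have n2 : E (fun x : Fin n → Bool => L x * f (fun i => !x i)) = - E (fun x => L x * f x) := by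
    rw [← E_equiv (negE (Fin n)) (fun x => L x * f x), ← E_neg]
    refine E_congr fun x => ?_
    have : L (negE (Fin n) x) = - L x := L_neg x
    rw [this]
    simp only [negE, Equiv.coe_fn_mk]
    ring
  have hf : -1 ≤ E f := by
    rw [← E_const (X := Fin n → Bool) (-1)]
    exact E_mono fun x => by rcases f1 x with h | h <;> rw [h] <;> norm_num
  refine ⟨1 + D, E f + E (fun x => L x * f x), by omega, ?_, Fin n ⊕ Unit, inferInstance,
    inferInstance, g, ?_, ?_, ?_, ?_⟩
  · have d1 : (1 : ℝ) ≤ D := by exact_mod_cast hD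
    have s1 : 1 ≤ √(D : ℝ) := Real.one_le_sqrt.2 d1
    have s2 : √((1 + D : ℕ) : ℝ) ≤ 3 / 2 * √D := by
      refine Real.sqrt_le_iff.2 ⟨by positivity, ?_⟩
      rw [mul_pow, Real.sq_sqrt (by positivity)]
      push_cast
      nlinarith
    linarith
  · intro x
    cases h : x (Sum.inr ())
    · rcases f1 (fun i => !x (Sum.inl i)) with h2 | h2 <;> simp [g, h, h2, sg]
    · rcases f1 (fun i => x (Sum.inl i)) with h2 | h2 <;> simp [g, h, h2, sg]
  · refine J_sub (J_mul ?_ (J_inl f2)) (J_mul ?_ ?_)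
    · exact J_coord (Sum.inr ()) (fun b => (1 + sg b) / 2)
    · exact J_coord (Sum.inr ()) (fun b => (1 - sg b) / 2)
    · exact J_pull Sum.inl (fun _ b => !b) f2
  · rw [E_sumElim]
    have e : ∀ x : Fin n → Bool, E (fun y : Unit → Bool => g (Sum.elim x y)) =
        1 / 2 * f x - 1 / 2 * f (fun i => !x i) := by
      intro x
      rw [E_unit]
      simp [g, sg]
      ring
    rw [E_congr e, E_sub, E_mul_left, E_mul_left, n1]
    have : E (fun x => f x) = E f := rfl
    rw [this, sub_self]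
  · rw [E_sumElim]
    have e : ∀ x : Fin n → Bool, E (fun y : Unit → Bool => L (Sum.elim x y) * g (Sum.elim x y)) =
        (1 / 2 * (L x * f x) - 1 / 2 * (L x * f (fun i => !x i))) +
          (1 / 2 * f x + 1 / 2 * f (fun i => !x i)) := by
      intro x
      have a1 : ∀ b : Bool, L (Sum.elim x (fun _ : Unit => b)) = L x + sg b := by
        intro b; simp [L, Fintype.sum_sum_type]
      have a2 : g (Sum.elim x (fun _ : Unit => true)) = f x := by simp [g, sg]
      have a3 : g (Sum.elim x (fun _ : Unit => false)) = - f (fun i => !x i) := by simp [g, sg]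
      rw [E_unit, a1, a1, a2, a3]
      simp only [sg, if_true, Bool.false_eq_true, if_false]
      ring
    rw [E_congr e, E_add, E_sub, E_add, E_mul_left, E_mul_left, E_mul_left, E_mul_left, n1, n2]
    have : E (fun x => f x) = E f := rfl
    rw [this]; ring

lemma good_fin {D : ℕ} {A : ℝ} (h : Good D A) : ∃ (n : ℕ) (f : (Fin n → Bool) → ℝ),
    (∀ x, f x = 1 ∨ f x = -1) ∧ f ∈ J (Fin n) Bool D ∧ E (fun x => L x * f x) = A := by
  obtain ⟨K, _, _, f, f1, f2, _, f4⟩ := h
  let e := Fintype.equivFin K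
  refine ⟨Fintype.card K, fun x => f (fun j => x (e j)), fun x => f1 _,
    J_pull e (fun _ b => b) f2, ?_⟩
  rw [← f4, ← E_equiv (Equiv.arrowCongr e.symm (Equiv.refl Bool)) (fun x : K → Bool => L x * f x)]
  refine E_congr fun x => ?_
  have : L x = L ((Equiv.arrowCongr e.symm (Equiv.refl Bool)) x) := by
    simp only [L, Equiv.arrowCongr_apply, Equiv.symm_symm, Equiv.coe_refl, Function.comp, id]
    exact (Equiv.sum_comp e (fun i => sg (x i))).symm
  rw [this]
  rfl

theorem power_gap : ∃ ε c : ℝ, 0 < ε ∧ 0 < c ∧ ∀ d : ℕ, 1 ≤ d →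
    ∃ (n : ℕ) (f : (Fin n → Bool) → ℝ), (∀ x, f x = 1 ∨ f x = -1) ∧ f ∈ J (Fin n) Bool d ∧
      c * (d : ℝ) ^ (1 / 2 + ε) ≤ E (fun x => L x * f x) := by
  obtain ⟨D, A, hD, hA, h⟩ := good_base
  have d2 : (2 : ℝ) ≤ D := by exact_mod_cast hD
  have s0 : 0 < √(D : ℝ) := Real.sqrt_pos.2 (by linarith)
  have lD : 0 < Real.log D := Real.log_pos (by linarith)
  have hε : 0 < Real.log 2 / Real.log D := div_pos (Real.log_pos (by norm_num)) lD
  have key : (D : ℝ) ^ (1 / 2 + Real.log 2 / Real.log D) = 2 * √D := by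
    rw [Real.rpow_add (by linarith), ← Real.sqrt_eq_rpow, mul_comm]
    congr 1
    rw [Real.rpow_def_of_pos (by linarith), mul_div_cancel₀ _ lD.ne', Real.exp_log (by norm_num)]
  refine ⟨Real.log 2 / Real.log D, 1 / (2 * √D), hε, by positivity, fun d hd => ?_⟩
  obtain ⟨n, f, f1, f2, f4⟩ := good_fin (good_pow (by linarith) h (Nat.log D d))
  refine ⟨n, f, f1, J_mono (Nat.pow_log_le_self D (by omega)) f2, ?_⟩
  have l1 : (d : ℝ) ≤ (D : ℝ) ^ (Nat.log D d + 1) := by
    exact_mod_cast (Nat.lt_pow_succ_log_self (by omega) d).le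
  have l2 : (d : ℝ) ^ (1 / 2 + Real.log 2 / Real.log D) ≤ (2 * √D) ^ (Nat.log D d + 1) := by
    refine (Real.rpow_le_rpow (by positivity) l1 (by positivity)).trans ?_
    rw [← Real.rpow_natCast, ← Real.rpow_mul (by linarith), mul_comm, Real.rpow_mul (by linarith),
      key, Real.rpow_natCast]
  rw [f4, one_div, inv_mul_le_iff₀ (by positivity)]
  refine l2.trans ?_
  rw [pow_succ, mul_comm]
  gcongr

end Vale.Agent.P047
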